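import Mathlib

/-!
P050, local form: averages over maps, densities of edge sets, and the identity that expresses
the first variation through connected edge sets.
-/

namespace Vale.Agent.P050.Local

open Finset Function

noncomputable section

attribute [local instance 10] Classical.propDecidable

/-- The average of a function on a finite type. -/
def avg {α : Type*} [Fintype α] (G : α → ℝ) : ℝ := (∑ a, G a) / Fintype.card α

lemma avg_mono {α : Type*} [Fintype α] {G G' : α → ℝ} (h : ∀ a, G a ≤ G' a) : avg G ≤ avg G' :=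
  div_le_div_of_nonneg_right (Finset.sum_le_sum fun a _ => h a) (Nat.cast_nonneg _)

lemma avg_mul_left {α : Type*} [Fintype α] (c : ℝ) (G : α → ℝ) :
    avg (fun a => c * G a) = c * avg G := by
  simp only [avg, ← Finset.mul_sum, mul_div_assoc]

lemma avg_mul_right {α : Type*} [Fintype α] (c : ℝ) (G : α → ℝ) :
    avg (fun a => G a * c) = avg G * c := by
  simp only [avg, ← Finset.sum_mul, div_mul_eq_mul_div]

lemma avg_const {α : Type*} [Fintype α] [Nonempty α] (c : ℝ) : avg (fun _ : α => c) = c := by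
  simp [avg]

lemma avg_add {α : Type*} [Fintype α] (G G' : α → ℝ) :
    avg (fun a => G a + G' a) = avg G + avg G' := by
  simp [avg, Finset.sum_add_distrib, add_div]

lemma avg_sum {α β : Type*} [Fintype α] (s : Finset β) (G : β → α → ℝ) :
    avg (fun a => ∑ b ∈ s, G b a) = ∑ b ∈ s, avg (G b) := by
  simp only [avg, ← Finset.sum_div]
  rw [Finset.sum_comm]

lemma abs_avg_le {α : Type*} [Fintype α] (G : α → ℝ) : |avg G| ≤ avg fun a => |G a| := by
  rw [avg, avg, abs_div, Nat.abs_cast]
  exact div_le_div_of_nonneg_right (Finset.abs_sum_le_sum_abs _ _) (Nat.cast_nonneg _)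

variable {V X : Type*} [Fintype V] [DecidableEq V] [Fintype X] [Nonempty X]

/-- Averaging over some coordinates first. -/
lemma avg_extend {ι : Type*} [Fintype ι] [DecidableEq ι] (p : ι → V) (hp : Injective p) (G : (V → X) → ℝ) :
    avg G = avg fun x => avg fun z : ι → X => G (extend p z x) := by
  let Φ : (V → X) × (ι → X) → (V → X) × (ι → X) := fun q => (extend p q.2 q.1, q.1 ∘ p)
  have hΦ : Involutive Φ := by
    rintro ⟨x, z⟩
    refine Prod.ext (funext fun v => ?_) (funext fun i => hp.extend_apply _ _ i)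
    by_cases hv : ∃ i, p i = v
    · obtain ⟨i, rfl⟩ := hv
      exact hp.extend_apply _ _ i
    · simp [Φ, extend_apply' _ _ _ hv]
  have h : ∑ q : (V → X) × (ι → X), G (Φ q).1 = ∑ q : (V → X) × (ι → X), G q.1 :=
    Equiv.sum_comp hΦ.toPerm (fun q => G q.1)
  simp only [Φ, Fintype.sum_prod_type, Finset.sum_const, Finset.card_univ, nsmul_eq_mul,
    ← Finset.mul_sum] at h
  simp only [avg, ← Finset.sum_div]
  rw [h, div_div]
  have : (Fintype.card (ι → X) : ℝ) ≠ 0 := Nat.cast_ne_zero.2 Fintype.card_ne_zero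
  field_simp

/-- Integrating out a single coordinate. -/
lemma avg_update (u : V) (G : (V → X) → ℝ) :
    avg G = avg fun x => avg fun a : X => G (update x u a) := by
  rw [avg_extend (ι := Unit) (fun _ => u) (fun _ _ _ => rfl) G]
  congr 1
  funext x
  rw [avg, avg, ← Equiv.sum_comp (Equiv.funUnique Unit X).symm, Fintype.card_fun,
    Fintype.card_unit, pow_one]
  congr 1
  refine Finset.sum_congr rfl fun a _ => congrArg G (funext fun v => ?_)
  by_cases h : v = u
  · subst h
    rw [update_self]
    exact Injective.extend_apply (fun _ _ _ => rfl) _ _ ()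
  · rw [update_of_ne h, extend_apply' _ _ _ (by rintro ⟨_, rfl⟩; exact h rfl)]

/-- Functions of disjoint sets of coordinates are independent. -/
lemma avg_mul_indep (S : Finset V) (g h : (V → X) → ℝ) (hg : DependsOn g ↑S)
    (hh : DependsOn h (↑S)ᶜ) : avg (fun x => g x * h x) = avg g * avg h := by
  obtain ⟨a⟩ := ‹Nonempty X›
  let p : S → V := Subtype.val
  have hp : Injective p := Subtype.val_injective
  let x0 : V → X := fun _ => a
  have e1 : ∀ x z, g (extend p z x) = g (extend p z x0) := fun x z => hg fun v hv => by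
    have : extend p z x v = z ⟨v, hv⟩ := hp.extend_apply z x ⟨v, hv⟩
    have : extend p z x0 v = z ⟨v, hv⟩ := hp.extend_apply z x0 ⟨v, hv⟩
    simp_all
  have e2 : ∀ x z, h (extend p z x) = h x := fun x z => hh fun v hv =>
    extend_apply' _ _ _ (by rintro ⟨i, rfl⟩; exact hv i.2)
  rw [avg_extend p hp, avg_extend p hp g]
  simp only [e1, e2, avg_mul_right, avg_const, avg_mul_left]

variable (g : X → X → ℝ)

/-- The weight of an edge under a map. -/
def ew (x : V → X) (e : Sym2 V) : ℝ := g (x e.out.1) (x e.out.2)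

omit [Fintype V] [Fintype X] [Nonempty X] [DecidableEq V] in
lemma ew_mk {g : X → X → ℝ} (hg : ∀ a b, g a b = g b a) (x : V → X) (u v : V) :
    ew g x s(u, v) = g (x u) (x v) := by
  have h : s((s(u, v)).out.1, (s(u, v)).out.2) = s(u, v) := Quot.out_eq _
  rcases Sym2.eq_iff.1 h with ⟨h1, h2⟩ | ⟨h1, h2⟩
  · rw [ew, h1, h2]
  · rw [ew, h1, h2, hg]

omit [Fintype V] [Fintype X] [Nonempty X] [DecidableEq V] in
lemma dependsOn_ew (e : Sym2 V) : DependsOn (fun x : V → X => ew g x e) {v | v ∈ e} :=
  fun x y h => by simp [ew, h _ e.out_fst_mem, h _ e.out_snd_mem]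

/-- The vertices of an edge set. -/
def verts (K : Finset (Sym2 V)) : Finset V := Finset.univ.filter fun v => ∃ e ∈ K, v ∈ e

omit [Fintype X] [Nonempty X] [Fintype V] [DecidableEq V] in
lemma dependsOn_prod (K : Finset (Sym2 V)) (φ : ℝ → ℝ) (S : Set V)
    (hS : ∀ e ∈ K, ∀ v ∈ e, v ∈ S) :
    DependsOn (fun x : V → X => ∏ e ∈ K, φ (ew g x e)) S :=
  fun _ _ h => Finset.prod_congr rfl fun e he =>
    congrArg φ (dependsOn_ew g e fun v hv => h v (hS e he v hv))

/-- The density of an edge set. -/
def tK (K : Finset (Sym2 V)) : ℝ := avg fun x : V → X => ∏ e ∈ K, ew g x e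

/-- The density of the weight `1 + g` on an edge set. -/
def Xi (S : Finset (Sym2 V)) : ℝ := avg fun x : V → X => ∏ e ∈ S, (1 + ew g x e)

/-- The first variation. -/
def dsum (E : Finset (Sym2 V)) : ℝ :=
  ∑ e ∈ E, avg fun x : V → X => ew g x e * ∏ e' ∈ E.erase e, (1 + ew g x e')

omit [Nonempty X] in
lemma Xi_eq_sum (S : Finset (Sym2 V)) : Xi g S = ∑ G ∈ S.powerset, tK g G := by
  simp only [Xi, Finset.prod_one_add, avg_sum, tK]

omit g [Fintype X] [Nonempty X] [Fintype V] [DecidableEq V] in
/-- Two edges share a vertex. -/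
def Meet (a b : Sym2 V) : Prop := ∃ v, v ∈ a ∧ v ∈ b

omit [Fintype V] [DecidableEq V] in
lemma Meet.symm {a b : Sym2 V} (h : Meet a b) : Meet b a := by
  obtain ⟨v, h1, h2⟩ := h; exact ⟨v, h2, h1⟩

omit [Fintype V] [DecidableEq V] in
lemma Meet.refl (a : Sym2 V) : Meet a a := ⟨_, a.out_fst_mem, a.out_fst_mem⟩

/-- One step inside an edge set. -/
def Step (K : Finset (Sym2 V)) (a b : Sym2 V) : Prop := a ∈ K ∧ b ∈ K ∧ Meet a b

omit [Fintype V] [DecidableEq V] in
lemma Step.symm {K : Finset (Sym2 V)} {a b : Sym2 V} (h : Step K a b) : Step K b a :=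
  ⟨h.2.1, h.1, h.2.2.symm⟩

/-- Reachability inside an edge set. -/
def Reach (K : Finset (Sym2 V)) : Sym2 V → Sym2 V → Prop := Relation.ReflTransGen (Step K)

omit [Fintype V] [DecidableEq V] in
lemma Reach.symm {K : Finset (Sym2 V)} {a b : Sym2 V} (h : Reach K a b) : Reach K b a := by
  induction h with
  | refl => exact Relation.ReflTransGen.refl
  | tail _ hs ih => exact Relation.ReflTransGen.head hs.symm ih

/-- A connected edge set. -/
def Conn (K : Finset (Sym2 V)) : Prop := K.Nonempty ∧ ∀ a ∈ K, ∀ b ∈ K, Reach K a b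

/-- The component of an edge in an edge set. -/
def comp (F : Finset (Sym2 V)) (e : Sym2 V) : Finset (Sym2 V) := F.filter (Reach F e)

/-- The closed neighbourhood of an edge set. -/
def cl (E K : Finset (Sym2 V)) : Finset (Sym2 V) := E.filter fun b => ∃ a ∈ K, Meet a b

omit [Fintype V] [DecidableEq V] in
lemma comp_subset (F : Finset (Sym2 V)) (e : Sym2 V) : comp F e ⊆ F := Finset.filter_subset _ _

omit [Fintype V] [DecidableEq V] in
lemma self_mem_comp {F : Finset (Sym2 V)} {e : Sym2 V} (he : e ∈ F) : e ∈ comp F e :=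
  Finset.mem_filter.2 ⟨he, Relation.ReflTransGen.refl⟩

omit [Fintype V] [DecidableEq V] in
lemma conn_comp {F : Finset (Sym2 V)} {e : Sym2 V} (he : e ∈ F) : Conn (comp F e) := by
  have key : ∀ a, Reach F e a → Reach (comp F e) e a := by
    intro a h
    induction h with
    | refl => exact Relation.ReflTransGen.refl
    | tail h hs ih =>
      refine ih.tail ⟨Finset.mem_filter.2 ⟨hs.1, h⟩, Finset.mem_filter.2 ⟨hs.2.1, h.tail hs⟩, hs.2.2⟩
  refine ⟨⟨e, self_mem_comp he⟩, fun a ha b hb => ?_⟩
  exact (key a (Finset.mem_filter.1 ha).2).symm.trans (key b (Finset.mem_filter.1 hb).2)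

omit [Fintype V] [DecidableEq V] in
lemma not_meet_comp {F : Finset (Sym2 V)} {e a b : Sym2 V} (ha : a ∈ comp F e) (hb : b ∈ F)
    (hm : Meet a b) : b ∈ comp F e :=
  Finset.mem_filter.2 ⟨hb, (Finset.mem_filter.1 ha).2.tail ⟨(comp_subset F e ha), hb, hm⟩⟩

omit [Fintype V] in
lemma comp_union {K G : Finset (Sym2 V)} {e : Sym2 V} (hK : Conn K) (he : e ∈ K)
    (hsep : ∀ a ∈ K, ∀ b ∈ G, ¬Meet a b) : comp (K ∪ G) e = K := by
  ext b
  constructor
  · intro hb
    have key : ∀ c, Reach (K ∪ G) e c → c ∈ K := by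
      intro c h
      induction h with
      | refl => exact he
      | tail _ hs ih =>
        rcases Finset.mem_union.1 hs.2.1 with h' | h'
        · exact h'
        · exact absurd hs.2.2 (hsep _ ih _ h')
    exact key b (Finset.mem_filter.1 hb).2
  · intro hb
    refine Finset.mem_filter.2 ⟨Finset.mem_union_left _ hb, ?_⟩
    have key : ∀ c, Reach K e c → Reach (K ∪ G) e c := by
      intro c h
      induction h with
      | refl => exact Relation.ReflTransGen.refl
      | tail _ hs ih =>
        exact ih.tail ⟨Finset.mem_union_left _ hs.1, Finset.mem_union_left _ hs.2.1, hs.2.2⟩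
    exact key b (hK.2 e he b hb)

lemma tK_union {K G : Finset (Sym2 V)} (hsep : ∀ a ∈ K, ∀ b ∈ G, ¬Meet a b) :
    tK g (K ∪ G) = tK g K * tK g G := by
  have hd : Disjoint K G := Finset.disjoint_left.2 fun a ha hb => hsep a ha a hb (Meet.refl a)
  simp only [tK, Finset.prod_union hd]
  refine avg_mul_indep (verts K) _ _ (dependsOn_prod g K id _ fun e he v hv => ?_)
    (dependsOn_prod g G id _ fun e he v hv => ?_)
  · simp [verts]; exact ⟨e, he, hv⟩
  · simp [verts]
    intro a ha hva
    exact hsep a ha e he ⟨v, hva, hv⟩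

/-- Connected subsets of `E`. -/
def connSets (E : Finset (Sym2 V)) : Finset (Finset (Sym2 V)) := E.powerset.filter Conn

/-- The first variation through connected edge sets. -/
theorem dsum_eq (E : Finset (Sym2 V)) :
    dsum g E = ∑ K ∈ connSets E, (K.card : ℝ) * (tK g K * Xi g (E \ cl E K)) := by
  have lhs : dsum g E
      = ∑ q ∈ E.sigma (fun e => (E.erase e).powerset), tK g (insert q.1 q.2) := by
    rw [Finset.sum_sigma]
    refine Finset.sum_congr rfl fun e he => ?_
    simp only [Finset.prod_one_add, Finset.mul_sum, avg_sum, tK]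
    refine Finset.sum_congr rfl fun G hG => ?_
    congr 1
    funext x
    rw [Finset.prod_insert fun h => Finset.notMem_erase e E (Finset.mem_powerset.1 hG h)]
  have rhs : (∑ K ∈ connSets E, (K.card : ℝ) * (tK g K * Xi g (E \ cl E K)))
      = ∑ q ∈ (connSets E).sigma (fun K => K ×ˢ (E \ cl E K).powerset),
          tK g (q.1 ∪ q.2.2) := by
    rw [Finset.sum_sigma]
    refine Finset.sum_congr rfl fun K _ => ?_
    simp only [Finset.sum_product, Xi_eq_sum, Finset.mul_sum, Finset.sum_const, nsmul_eq_mul]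
    refine Finset.sum_congr rfl fun G hG => congrArg _ (tK_union g ?_).symm
    intro a ha b hb hm
    have := Finset.mem_powerset.1 hG hb
    simp only [Finset.mem_sdiff, cl, Finset.mem_filter] at this
    exact this.2 ⟨this.1, a, ha, hm⟩
  rw [lhs, rhs]
  refine Finset.sum_bij'
    (fun q _ => ⟨comp (insert q.1 q.2) q.1, q.1, insert q.1 q.2 \ comp (insert q.1 q.2) q.1⟩)
    (fun q _ => ⟨q.2.1, (q.1 ∪ q.2.2).erase q.2.1⟩) ?_ ?_ ?_ ?_ ?_
  · rintro ⟨e, G⟩ hq
    simp only [Finset.mem_sigma, Finset.mem_powerset] at hq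
    have hF : insert e G ⊆ E :=
      Finset.insert_subset hq.1 (hq.2.trans (Finset.erase_subset _ _))
    simp only [Finset.mem_sigma, connSets, Finset.mem_filter, Finset.mem_powerset,
      Finset.mem_product]
    refine ⟨⟨(comp_subset _ _).trans hF, conn_comp (Finset.mem_insert_self _ _)⟩,
      self_mem_comp (Finset.mem_insert_self _ _), fun b hb => ?_⟩
    obtain ⟨hb1, hb2⟩ := Finset.mem_sdiff.1 hb
    simp only [Finset.mem_sdiff, cl, Finset.mem_filter, not_and, not_exists]
    exact ⟨hF hb1, fun _ a ha hm => hb2 (not_meet_comp ha hb1 hm)⟩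
  · rintro ⟨K, e, G⟩ hq
    simp only [Finset.mem_sigma, connSets, Finset.mem_filter, Finset.mem_powerset,
      Finset.mem_product] at hq ⊢
    exact ⟨hq.1.1 hq.2.1, Finset.erase_subset_erase _
      (Finset.union_subset hq.1.1 (hq.2.2.trans Finset.sdiff_subset))⟩
  · rintro ⟨e, G⟩ hq
    simp only [Finset.mem_sigma, Finset.mem_powerset] at hq
    simp only [Finset.union_sdiff_of_subset (comp_subset _ _)]
    rw [Finset.erase_insert fun h => Finset.notMem_erase e E (hq.2 h)]
  · rintro ⟨K, e, G⟩ hq
    simp only [Finset.mem_sigma, connSets, Finset.mem_filter, Finset.mem_powerset,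
      Finset.mem_product] at hq
    have hsep : ∀ a ∈ K, ∀ b ∈ G, ¬Meet a b := fun a ha b hb hm => by
      have := hq.2.2 hb
      simp only [Finset.mem_sdiff, cl, Finset.mem_filter] at this
      exact this.2 ⟨this.1, a, ha, hm⟩
    have hd : Disjoint K G := Finset.disjoint_left.2 fun a ha hb => hsep a ha a hb (Meet.refl a)
    simp only [Finset.insert_erase (Finset.mem_union_left _ hq.2.1),
      comp_union hq.1.2 hq.2.1 hsep, Finset.union_sdiff_cancel_left hd]
  · rintro ⟨e, G⟩ _
    simp only [Finset.union_sdiff_of_subset (comp_subset _ _)]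

end

end Vale.Agent.P050.Local
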