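import Vale.Agent.P050.Local.Basic

/-!
P050, local form: rooted edge sets, cycles and leaves.
-/

namespace Vale.Agent.P050.Local

open Finset Function

noncomputable section

attribute [local instance 10] Classical.propDecidable

variable {V : Type*} [Fintype V] [DecidableEq V]

/-- The degree in an edge set. -/
def deg (K : Finset (Sym2 V)) (v : V) : ℕ := (K.filter (v ∈ ·)).card

/-- Every component meets the root set. -/
def Rooted (R : Finset V) (J : Finset (Sym2 V)) : Prop :=
  ∀ a ∈ J, ∃ b ∈ J, Reach J a b ∧ ∃ v ∈ R, v ∈ b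

lemma mem_verts {K : Finset (Sym2 V)} {v : V} : v ∈ verts K ↔ ∃ e ∈ K, v ∈ e := by simp [verts]

omit [Fintype V] in
lemma deg_mono {K K' : Finset (Sym2 V)} (h : K ⊆ K') (v : V) : deg K v ≤ deg K' v :=
  Finset.card_le_card (Finset.filter_subset_filter _ h)

omit [Fintype V] in
/-- Weighted count of rooted edge sets. -/
theorem rooted_sum_le {x : ℝ} (hx : 0 ≤ x) {Δ : ℕ} (hΔ : (1 + 2 * x) ^ Δ ≤ 2) :
    ∀ (U : Finset (Sym2 V)) (R : Finset V), (∀ v, deg U v ≤ Δ) →
      ∑ J ∈ U.powerset.filter (Rooted R), x ^ J.card ≤ 2 ^ R.card := by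
  suffices ∀ (k : ℕ) (U : Finset (Sym2 V)) (R : Finset V), U.card + R.card = k →
      (∀ v, deg U v ≤ Δ) → ∑ J ∈ U.powerset.filter (Rooted R), x ^ J.card ≤ 2 ^ R.card from
    fun U R h => this _ U R rfl h
  intro k
  induction k using Nat.strong_induction_on with
  | _ k ih =>
    intro U R hk hdeg
    rcases R.eq_empty_or_nonempty with rfl | ⟨v, hv⟩
    · have : U.powerset.filter (Rooted (∅ : Finset V)) = {∅} := by
        ext J
        simp only [Finset.mem_filter, Finset.mem_powerset, Finset.mem_singleton]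
        refine ⟨fun ⟨_, hr⟩ => Finset.eq_empty_of_forall_notMem fun a ha => ?_, ?_⟩
        · obtain ⟨b, -, -, w, hw, -⟩ := hr a ha
          simp at hw
        · rintro rfl; simp [Rooted]
      simp [this]
    let S := U.filter (v ∈ ·)
    let U' := U.filter (v ∉ ·)
    let R' : Finset (Sym2 V) → Finset V := fun I =>
      R.erase v ∪ I.biUnion fun e => if h : v ∈ e then {Sym2.Mem.other h} else ∅
    have hR' : ∀ I : Finset (Sym2 V), (R' I).card ≤ R.card - 1 + I.card := fun I => by
      refine (Finset.card_union_le _ _).trans (add_le_add (le_of_eq (Finset.card_erase_of_mem hv)) ?_)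
      refine Finset.card_biUnion_le.trans ((Finset.sum_le_card_nsmul _ _ 1 fun e _ => ?_).trans
        (by simp))
      split_ifs <;> simp
    calc ∑ J ∈ U.powerset.filter (Rooted R), x ^ J.card
        = ∑ J ∈ U.powerset.filter (Rooted R),
            x ^ (J.filter (v ∈ ·)).card * x ^ (J.filter (v ∉ ·)).card := by
          refine Finset.sum_congr rfl fun J _ => ?_
          rw [← pow_add, Finset.card_filter_add_card_filter_not]
      _ ≤ ∑ q ∈ S.powerset.sigma (fun I => U'.powerset.filter (Rooted (R' I))),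
            x ^ q.1.card * x ^ q.2.card := by
          refine le_of_eq_of_le (Finset.sum_image (f := fun q : (_ : Finset (Sym2 V)) × Finset (Sym2 V) =>
            x ^ q.1.card * x ^ q.2.card)
            (g := fun J : Finset (Sym2 V) => (⟨J.filter (v ∈ ·), J.filter (v ∉ ·)⟩ :
              (_ : Finset (Sym2 V)) × Finset (Sym2 V))) ?_).symm ?_
          rotate_left
          · refine Finset.sum_le_sum_of_subset_of_nonneg ?_ fun q _ _ => by positivity
            intro q hq
            obtain ⟨J, hJ, rfl⟩ := Finset.mem_image.1 hq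
            simp only [Finset.mem_filter, Finset.mem_powerset] at hJ
            simp only [Finset.mem_sigma, Finset.mem_powerset, Finset.mem_filter]
            refine ⟨Finset.filter_subset_filter _ hJ.1, Finset.filter_subset_filter _ hJ.1, ?_⟩
            intro a ha
            obtain ⟨b, hb, hab, w, hw, hwb⟩ := hJ.2 a (Finset.mem_filter.1 ha).1
            have key : ∀ c, Reach J c b → c ∈ J.filter (v ∉ ·) →
                ∃ b' ∈ J.filter (v ∉ ·), Reach (J.filter (v ∉ ·)) c b' ∧
                  ∃ u ∈ R' (J.filter (v ∈ ·)), u ∈ b' := by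
              intro c hc
              induction hc using Relation.ReflTransGen.head_induction_on with
              | refl =>
                intro hb'
                refine ⟨b, hb', Relation.ReflTransGen.refl, w, Finset.mem_union_left _
                  (Finset.mem_erase.2 ⟨fun h => (Finset.mem_filter.1 hb').2 (h ▸ hwb), hw⟩), hwb⟩
              | @head c d hs _ ih =>
                intro hc'
                by_cases hd : v ∈ d
                · obtain ⟨u, huc, hud⟩ := hs.2.2
                  refine ⟨c, hc', Relation.ReflTransGen.refl, u, Finset.mem_union_right _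
                    (Finset.mem_biUnion.2 ⟨d, Finset.mem_filter.2 ⟨hs.2.1, hd⟩, ?_⟩), huc⟩
                  rw [dif_pos hd, Finset.mem_singleton]
                  have hne : u ≠ v := fun h => (Finset.mem_filter.1 hc').2 (h ▸ huc)
                  rw [← Sym2.other_spec hd, Sym2.mem_iff] at hud
                  exact hud.resolve_left hne
                · have hd' : d ∈ J.filter (v ∉ ·) := Finset.mem_filter.2 ⟨hs.2.1, hd⟩
                  obtain ⟨b', hb', hr, hu⟩ := ih hd'
                  exact ⟨b', hb', Relation.ReflTransGen.head ⟨hc', hd', hs.2.2⟩ hr, hu⟩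
            exact key a hab ha
          · intro J _ J' _ h
            simp only [Sigma.mk.injEq, heq_eq_eq] at h
            rw [← Finset.filter_union_filter_not_eq (v ∈ ·) J, h.1, h.2,
              Finset.filter_union_filter_not_eq]
      _ = ∑ I ∈ S.powerset, x ^ I.card * ∑ J ∈ U'.powerset.filter (Rooted (R' I)), x ^ J.card := by
          rw [Finset.sum_sigma]; simp only [Finset.mul_sum]
      _ ≤ ∑ I ∈ S.powerset, x ^ I.card * 2 ^ (R.card - 1 + I.card) := by
          refine Finset.sum_le_sum fun I hI => mul_le_mul_of_nonneg_left ?_ (pow_nonneg hx _)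
          refine le_trans (ih _ ?_ U' (R' I) rfl fun w =>
            (deg_mono (Finset.filter_subset _ _) w).trans (hdeg w))
            (pow_le_pow_right₀ one_le_two (hR' I))
          have h1 := Finset.card_le_card (Finset.mem_powerset.1 hI)
          have h2 := Finset.card_filter_add_card_filter_not (s := U) (v ∈ ·)
          have h3 := hR' I
          have h4 := Finset.card_pos.2 ⟨v, hv⟩
          simp only [S, U'] at *
          omega
      _ = 2 ^ (R.card - 1) * (1 + 2 * x) ^ S.card := by
          rw [add_comm (1 : ℝ), ← Finset.sum_pow_mul_eq_add_pow, Finset.mul_sum]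
          refine Finset.sum_congr rfl fun I _ => ?_
          rw [pow_add, mul_pow, one_pow, mul_one]
          ring
      _ ≤ 2 ^ (R.card - 1) * 2 := by
          refine mul_le_mul_of_nonneg_left (le_trans (pow_le_pow_right₀ (by linarith) (hdeg v)) hΔ)
            (by positivity)
      _ = 2 ^ R.card := by
          rw [← pow_succ, Nat.sub_add_cancel (Finset.card_pos.2 ⟨v, hv⟩)]

/-- Rooted edge sets with at least `j₀` edges. -/
theorem rooted_sum_pow_le {y ρ : ℝ} {Δ j₀ : ℕ} (hy : 0 ≤ y) (hρ : 4 * Δ * y ≤ ρ) (hρ1 : ρ ≤ 1)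
    (U : Finset (Sym2 V)) (R : Finset V) (hdeg : ∀ v, deg U v ≤ Δ) :
    ∑ J ∈ (U.powerset.filter (Rooted R)).filter (fun J => j₀ ≤ J.card), y ^ J.card
      ≤ ρ ^ j₀ * 2 ^ R.card := by
  rcases Nat.eq_zero_or_pos Δ with rfl | hΔ
  · have hU : U = ∅ := Finset.eq_empty_of_forall_notMem fun e he => by
      have h1 : e ∈ U.filter (e.out.1 ∈ ·) := Finset.mem_filter.2 ⟨he, e.out_fst_mem⟩
      have := hdeg e.out.1
      rw [deg, Nat.le_zero, Finset.card_eq_zero] at this
      simp [this] at h1
    subst hU
    simp only [Nat.cast_zero, mul_zero, zero_mul] at hρ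
    rcases Nat.eq_zero_or_pos j₀ with rfl | hj
    · calc _ ≤ ∑ J ∈ ({∅} : Finset (Finset (Sym2 V))), y ^ J.card :=
            Finset.sum_le_sum_of_subset_of_nonneg (by intro J; simp +contextual)
              fun _ _ _ => pow_nonneg hy _
        _ ≤ _ := by simp [one_le_pow₀ (one_le_two (α := ℝ))]
    · rw [Finset.sum_eq_zero]
      · positivity
      · intro J hJ
        simp at hJ
        rcases hJ with ⟨⟨rfl, -⟩, h⟩
        simp at h
        omega
  have hρ0 : 0 ≤ ρ := le_trans (by positivity) hρ
  have hΔ' : (1 : ℝ) ≤ Δ := by exact_mod_cast hΔ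
  have key : (1 + 2 * (1 / (4 * (Δ : ℝ)))) ^ Δ ≤ 2 := by
    calc (1 + 2 * (1 / (4 * (Δ : ℝ)))) ^ Δ ≤ Real.exp (2 * (1 / (4 * (Δ : ℝ)))) ^ Δ :=
          pow_le_pow_left₀ (by positivity) (by rw [add_comm]; exact Real.add_one_le_exp _) _
      _ = Real.exp (1 / 2) := by rw [← Real.exp_nat_mul]; congr 1; field_simp; ring
      _ ≤ 2 := by
          have h := Real.exp_bound' (x := 1 / 2) (by norm_num) (by norm_num) (n := 2) (by norm_num)
          norm_num [Finset.sum_range_succ, Nat.factorial] at h ⊢
          linarith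
  calc ∑ J ∈ (U.powerset.filter (Rooted R)).filter (fun J => j₀ ≤ J.card), y ^ J.card
      ≤ ∑ J ∈ (U.powerset.filter (Rooted R)).filter (fun J => j₀ ≤ J.card),
          ρ ^ j₀ * (1 / (4 * (Δ : ℝ))) ^ J.card := by
        refine Finset.sum_le_sum fun J hJ => ?_
        calc y ^ J.card ≤ (ρ * (1 / (4 * (Δ : ℝ)))) ^ J.card := by
              refine pow_le_pow_left₀ hy ?_ _
              rw [mul_one_div, le_div_iff₀ (by positivity)]
              linarith
          _ ≤ _ := by
              rw [mul_pow]
              exact mul_le_mul_of_nonneg_right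
                (pow_le_pow_of_le_one hρ0 hρ1 (Finset.mem_filter.1 hJ).2) (by positivity)
    _ ≤ ρ ^ j₀ * ∑ J ∈ U.powerset.filter (Rooted R), (1 / (4 * (Δ : ℝ))) ^ J.card := by
        rw [← Finset.mul_sum]
        exact mul_le_mul_of_nonneg_left (Finset.sum_le_sum_of_subset_of_nonneg
          (Finset.filter_subset _ _) fun _ _ _ => by positivity) (pow_nonneg hρ0 _)
    _ ≤ _ := mul_le_mul_of_nonneg_left (rooted_sum_le (by positivity) key U R hdeg)
        (pow_nonneg hρ0 _)

lemma rooted_sdiff {K C : Finset (Sym2 V)} (hK : Conn K) (hC : C ⊆ K) (hne : C.Nonempty) :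
    Rooted (verts C) (K \ C) := by
  obtain ⟨c, hc⟩ := hne
  have key : ∀ a, Reach K a c → a ∈ K \ C →
      ∃ b ∈ K \ C, Reach (K \ C) a b ∧ ∃ v ∈ verts C, v ∈ b := by
    intro a h
    induction h using Relation.ReflTransGen.head_induction_on with
    | refl => intro h; exact absurd hc (Finset.mem_sdiff.1 h).2
    | @head a d hs _ ih =>
      intro ha
      by_cases hd : d ∈ C
      · obtain ⟨u, hua, hud⟩ := hs.2.2
        exact ⟨a, ha, Relation.ReflTransGen.refl, u, mem_verts.2 ⟨d, hd, hud⟩, hua⟩
      · have hd' : d ∈ K \ C := Finset.mem_sdiff.2 ⟨hs.2.1, hd⟩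
        obtain ⟨b, hb, hr, hu⟩ := ih hd'
        exact ⟨b, hb, Relation.ReflTransGen.head ⟨ha, hd', hs.2.2⟩ hr, hu⟩
  exact fun a ha => key a (hK.2 a (Finset.mem_sdiff.1 ha).1 c (hC hc)) ha

/-- The end points of an edge. -/
lemma card_mem_edge (e : Sym2 V) : (Finset.univ.filter (· ∈ e)).card ≤ 2 := by
  induction e using Sym2.ind with
  | _ a b =>
    exact le_trans (Finset.card_le_card (t := {a, b}) (by intro z; simp)) Finset.card_le_two

lemma card_verts_le (K : Finset (Sym2 V)) : (verts K).card ≤ 2 * K.card := by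
  calc (verts K).card ≤ (K.biUnion fun e => Finset.univ.filter (· ∈ e)).card :=
        Finset.card_le_card fun v hv => by simpa [mem_verts] using hv
    _ ≤ _ := by
        refine Finset.card_biUnion_le.trans ?_
        rw [mul_comm, ← smul_eq_mul, ← Finset.sum_const]
        exact Finset.sum_le_sum fun e _ => card_mem_edge e

/-- The step of a cyclic sequence. -/
def cedge {n : ℕ} (p : Fin (n + 1) → V) (i : Fin (n + 1)) : Sym2 V := s(p i, p (i + 1))

/-- A cycle. -/
def IsCyc (C : Finset (Sym2 V)) : Prop :=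
  ∃ (n : ℕ) (p : Fin (n + 1) → V), 2 ≤ n ∧ Injective p ∧ C = Finset.univ.image (cedge p)

omit [Fintype V] [DecidableEq V] in
lemma cedge_injective {n : ℕ} {p : Fin (n + 1) → V} (hn : 2 ≤ n) (hp : Injective p) :
    Injective (cedge p) := by
  intro a b h
  rcases Sym2.eq_iff.1 h with ⟨h1, -⟩ | ⟨h1, h2⟩
  · exact hp h1
  · have e1 := hp h1
    have e2 := hp h2
    rw [e1, add_assoc, add_eq_left] at e2
    have := congrArg Fin.val e2
    simp [Fin.val_add, Nat.mod_eq_of_lt (show 1 < n + 1 by omega),
      Nat.mod_eq_of_lt (show 2 < n + 1 by omega)] at this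

omit [Fintype V] in
lemma card_cyc {n : ℕ} {p : Fin (n + 1) → V} (hn : 2 ≤ n) (hp : Injective p) :
    (Finset.univ.image (cedge p)).card = n + 1 := by
  rw [Finset.card_image_of_injective _ (cedge_injective hn hp)]
  simp

omit [Fintype V] in
lemma IsCyc.three_le {C : Finset (Sym2 V)} (h : IsCyc C) : 3 ≤ C.card := by
  obtain ⟨n, p, hn, hp, rfl⟩ := h
  rw [card_cyc hn hp]; omega

lemma verts_cyc {n : ℕ} (p : Fin (n + 1) → V) :
    verts (Finset.univ.image (cedge p)) = Finset.univ.image p := by
  ext v
  simp only [mem_verts, Finset.mem_image, Finset.mem_univ, true_and, cedge]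
  constructor
  · rintro ⟨e, ⟨i, rfl⟩, hv⟩
    rcases Sym2.mem_iff.1 hv with rfl | rfl
    · exact ⟨i, rfl⟩
    · exact ⟨i + 1, rfl⟩
  · rintro ⟨i, rfl⟩
    exact ⟨_, ⟨i, rfl⟩, Sym2.mem_mk_left _ _⟩

omit [Fintype V] in
lemma IsCyc.conn {C : Finset (Sym2 V)} (h : IsCyc C) : Conn C := by
  obtain ⟨n, p, hn, hp, rfl⟩ := h
  have key : ∀ i, Reach (Finset.univ.image (cedge p)) (cedge p 0) (cedge p i) := by
    intro i
    induction i using Fin.induction with
    | zero => exact Relation.ReflTransGen.refl
    | succ i ih =>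
      refine ih.tail ⟨Finset.mem_image_of_mem _ (Finset.mem_univ _),
        Finset.mem_image_of_mem _ (Finset.mem_univ _), p i.succ, ?_, Sym2.mem_mk_left _ _⟩
      rw [show i.succ = i.castSucc + 1 from Fin.coeSucc_eq_succ.symm]
      exact Sym2.mem_mk_right _ _
  refine ⟨⟨cedge p 0, Finset.mem_image_of_mem _ (Finset.mem_univ _)⟩, ?_⟩
  intro a ha b hb
  obtain ⟨i, -, rfl⟩ := Finset.mem_image.1 ha
  obtain ⟨j, -, rfl⟩ := Finset.mem_image.1 hb
  exact (key i).symm.trans (key j)

omit [Fintype V] in
lemma IsCyc.deg_eq {C : Finset (Sym2 V)} (h : IsCyc C) (v : V) : deg C v = 0 ∨ deg C v = 2 := by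
  obtain ⟨n, p, hn, hp, rfl⟩ := h
  by_cases hv : ∃ i, p i = v
  · obtain ⟨i, rfl⟩ := hv
    right
    have hset : (Finset.univ.image (cedge p)).filter (p i ∈ ·)
        = {cedge p i, cedge p (i - 1)} := by
      ext e
      simp only [Finset.mem_filter, Finset.mem_image, Finset.mem_univ, true_and,
        Finset.mem_insert, Finset.mem_singleton]
      constructor
      · rintro ⟨⟨j, rfl⟩, hj⟩
        rcases Sym2.mem_iff.1 hj with h | h
        · exact Or.inl (by rw [hp h])
        · exact Or.inr (by rw [hp h, add_sub_cancel_right])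
      · rintro (rfl | rfl)
        · exact ⟨⟨i, rfl⟩, Sym2.mem_mk_left _ _⟩
        · exact ⟨⟨i - 1, rfl⟩, by simp [cedge]⟩
    rw [deg, hset, Finset.card_pair fun h => ?_]
    have := cedge_injective hn hp h
    rw [eq_comm, sub_eq_self] at this
    have := congrArg Fin.val this
    simp [Nat.mod_eq_of_lt (show 1 < n + 1 by omega)] at this
  · left
    rw [deg, Finset.card_eq_zero, Finset.filter_eq_empty_iff]
    intro e he hve
    obtain ⟨j, -, rfl⟩ := Finset.mem_image.1 he
    rcases Sym2.mem_iff.1 hve with h | h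
    · exact hv ⟨j, h.symm⟩
    · exact hv ⟨j + 1, h.symm⟩

/-- An edge set without loops. -/
def Loopless (K : Finset (Sym2 V)) : Prop := ∀ e ∈ K, ¬e.IsDiag

/-- An edge set with no vertex of degree one contains a cycle. -/
theorem exists_cyc_of_no_leaf {K : Finset (Sym2 V)} (hl : Loopless K) (hne : K.Nonempty)
    (h : ∀ v, deg K v ≠ 1) : ∃ C ⊆ K, IsCyc C := by
  let G := SimpleGraph.fromEdgeSet (K : Set (Sym2 V))
  have hadj : ∀ a b, G.Adj a b ↔ s(a, b) ∈ K := fun a b => by
    simp only [G, SimpleGraph.fromEdgeSet_adj, Finset.mem_coe, and_iff_left_iff_imp]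
    exact fun hab e => hl _ hab (Sym2.mk_isDiag_iff.2 e)
  by_cases hac : G.IsAcyclic
  · exfalso
    obtain ⟨e, he⟩ := hne
    have hne' : Nonempty V := ⟨e.out.1⟩
    obtain ⟨u, w, p, hp, hmax⟩ := SimpleGraph.Walk.exists_isPath_forall_isPath_length_le_length G
    have hee : G.Adj e.out.1 e.out.2 := by
      rw [hadj]; rw [show s(e.out.1, e.out.2) = e from Quot.out_eq e]; exact he
    have hnil : ¬p.Nil := by
      rw [← SimpleGraph.Walk.length_eq_zero_iff]
      have h1 := hmax _ _ hee.toWalk (by simp [hee.ne])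
      simp at h1
      omega
    refine h u (Finset.card_eq_one.2 ⟨s(u, p.snd), ?_⟩)
    ext f
    simp only [Finset.mem_filter, Finset.mem_singleton]
    constructor
    · rintro ⟨hf, huf⟩
      obtain ⟨b, rfl⟩ := huf
      rw [← hadj] at hf
      have : ¬(p.cons hf.symm).IsPath := fun hP => by
        have := hmax _ _ _ hP
        simp at this
      rw [hac.eq_snd_of_adj_start hp hf ?_]
      by_contra hb
      exact this (hp.cons hb)
    · rintro rfl
      exact ⟨(hadj _ _).1 (p.adj_snd hnil), Sym2.mem_mk_left _ _⟩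
  obtain ⟨a, w, hw, -⟩ := SimpleGraph.exists_girth_eq_length.2 hac
  obtain ⟨n, hn⟩ : ∃ n, w.length = n + 1 := ⟨w.length - 1, by have := hw.three_le_length; omega⟩
  refine ⟨Finset.univ.image (cedge fun i : Fin (n + 1) => w.getVert i), ?_, n, _,
    by have := hw.three_le_length; omega, ?_, rfl⟩
  · intro f hf
    obtain ⟨i, -, rfl⟩ := Finset.mem_image.1 hf
    have hstep := w.adj_getVert_succ (i := (i : ℕ)) (by omega)
    rw [hadj] at hstep
    unfold cedge
    have e : w.getVert ((i + 1 : Fin (n + 1)) : ℕ) = w.getVert ((i : ℕ) + 1) := by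
      rw [Fin.val_add_one]
      split_ifs with h'
      · subst h'
        rw [SimpleGraph.Walk.getVert_zero, Fin.val_last, ← hn, SimpleGraph.Walk.getVert_length]
      · rfl
    simpa only [e] using hstep
  · intro i j hij
    refine Fin.ext (hw.getVert_injOn' ?_ ?_ hij) <;> (simp; omega)

lemma sum_deg {K : Finset (Sym2 V)} (hl : Loopless K) : ∑ v, deg K v = 2 * K.card := by
  simp only [deg, Finset.card_filter]
  rw [Finset.sum_comm, mul_comm, ← smul_eq_mul, ← Finset.sum_const]
  refine Finset.sum_congr rfl fun e he => ?_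
  rw [← Finset.card_filter, ← Sym2.card_toFinset_of_not_isDiag e (hl e he)]
  congr 1
  ext v
  simp

lemma deg_pos {K : Finset (Sym2 V)} {v : V} : 0 < deg K v ↔ v ∈ verts K := by
  simp [deg, Finset.card_pos, Finset.filter_nonempty_iff, mem_verts]

lemma sum_deg_verts {K : Finset (Sym2 V)} (hl : Loopless K) :
    ∑ v ∈ verts K, deg K v = 2 * K.card := by
  rw [← sum_deg hl]
  refine Finset.sum_subset (Finset.subset_univ _) fun v _ hv => ?_
  rw [← deg_pos] at hv
  omega

/-- An edge set with no more vertices than edges contains a cycle. -/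
theorem exists_cyc_of_card {K : Finset (Sym2 V)} (hl : Loopless K) (hne : K.Nonempty)
    (h : (verts K).card ≤ K.card) : ∃ C ⊆ K, IsCyc C := by
  induction hk : K.card using Nat.strong_induction_on generalizing K with
  | _ k ih =>
    by_cases hleaf : ∀ v, deg K v ≠ 1
    · exact exists_cyc_of_no_leaf hl hne hleaf
    push Not at hleaf
    obtain ⟨v, hv⟩ := hleaf
    obtain ⟨e, he⟩ := Finset.card_eq_one.1 hv
    have hev : e ∈ K ∧ v ∈ e := by
      have : e ∈ K.filter (v ∈ ·) := by simp [he]
      simpa using this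
    have hsub : verts (K.erase e) ⊆ (verts K).erase v := by
      intro u hu
      obtain ⟨f, hf, huf⟩ := mem_verts.1 hu
      refine Finset.mem_erase.2 ⟨?_, mem_verts.2 ⟨f, Finset.mem_of_mem_erase hf, huf⟩⟩
      rintro rfl
      have : f ∈ ({e} : Finset (Sym2 V)) := by
        rw [← he]; exact Finset.mem_filter.2 ⟨Finset.mem_of_mem_erase hf, huf⟩
      exact (Finset.mem_erase.1 hf).1 (Finset.mem_singleton.1 this)
    have hv' : v ∈ verts K := mem_verts.2 ⟨e, hev⟩
    have h1 := (Finset.card_le_card hsub)
    rw [Finset.card_erase_of_mem hv'] at h1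
    have h2 := Finset.card_erase_of_mem hev.1
    rcases (K.erase e).eq_empty_or_nonempty with h0 | h0
    · have hKe : K.card = 1 := by
        rw [h0, Finset.card_empty] at h2
        have := hne.card_pos
        omega
      obtain ⟨a, ha⟩ := Finset.card_eq_one.1 hKe
      have hs := sum_deg_verts hl
      exfalso
      have : 2 ≤ (verts K).card := by
        rw [← Sym2.card_toFinset_of_not_isDiag a (hl a (by simp [ha]))]
        exact Finset.card_le_card fun u hu => mem_verts.2 ⟨a, by simp [ha], by simpa using hu⟩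
      omega
    obtain ⟨C, hC, hCc⟩ := ih (K.erase e).card (by rw [← hk]; exact Finset.card_erase_lt_of_mem hev.1)
      (fun f hf => hl f (Finset.mem_of_mem_erase hf)) h0 (by omega) rfl
    exact ⟨C, hC.trans (Finset.erase_subset _ _), hCc⟩

end

end Vale.Agent.P050.Local
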