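import Vale.Agent.P050.Local.Trace
import Vale.Agent.P050.Local.Comb

/-!
P050, local form: bounds for the density of one connected edge set.
-/

namespace Vale.Agent.P050.Local

open Finset Function Matrix

noncomputable section

attribute [local instance 10] Classical.propDecidable

variable {V X : Type*} [Fintype V] [DecidableEq V] [Fintype X] [DecidableEq X] [Nonempty X]
  (g : X → X → ℝ)

/-- The degree function. -/
def dg (a : X) : ℝ := avg (g a)

/-- The density of two adjacent edges. -/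
def Aq : ℝ := avg fun a => dg g a ^ 2

/-- The density of a cycle with `n + 1` edges. -/
def Bq (n : ℕ) : ℝ := avg fun z : Fin (n + 1) → X => ∏ i, g (z i) (z (i + 1))

/-- The normalised matrix. -/
def Tm : Matrix X X ℝ := Matrix.of fun a b => g a b / Fintype.card X

omit [Nonempty X] in
lemma word_apply (T : Matrix X X ℝ) : ∀ {n : ℕ} (m : Fin (n + 1) → X → ℝ) (a b : X),
    word T (List.ofFn m) a b = ∑ z : Fin n → X, ∏ i : Fin (n + 1),
      m i ((Fin.cons a (Fin.snoc z b) : Fin (n + 2) → X) i.castSucc) *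
        T ((Fin.cons a (Fin.snoc z b) : Fin (n + 2) → X) i.castSucc)
          ((Fin.cons a (Fin.snoc z b) : Fin (n + 2) → X) i.succ)
  | 0, m, a, b => by
    simp [List.ofFn_succ, Fin.snoc, diagonal_mul]
  | n + 1, m, a, b => by
    rw [List.ofFn_succ, word_cons, Matrix.mul_apply,
      ← Equiv.sum_comp (Fin.consEquiv fun _ : Fin (n + 1) => X), Fintype.sum_prod_type]
    refine Finset.sum_congr rfl fun c _ => ?_
    rw [word_apply T _ c b, Finset.mul_sum]
    refine Finset.sum_congr rfl fun z _ => ?_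
    simp only [Fin.consEquiv, Equiv.coe_fn_mk]
    rw [← Fin.cons_snoc_eq_snoc_cons, Fin.prod_univ_succ (n := n + 1)]
    simp only [diagonal_mul, Fin.castSucc_zero, Fin.castSucc_succ, Fin.cons_zero, Fin.cons_succ]

omit [Nonempty X] in
lemma cycle_avg {n : ℕ} (m : Fin (n + 1) → X → ℝ) :
    avg (fun z : Fin (n + 1) → X => ∏ i, m i (z i) * g (z i) (z (i + 1)))
      = val (Tm g) (List.ofFn m) := by
  rw [val, trace, avg, ← Equiv.sum_comp (Fin.consEquiv fun _ : Fin (n + 1) => X),
    Fintype.sum_prod_type, Finset.sum_div]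
  refine Finset.sum_congr rfl fun a _ => ?_
  rw [Matrix.diag_apply, word_apply, Finset.sum_div]
  refine Finset.sum_congr rfl fun z _ => ?_
  have e1 : ∀ i : Fin (n + 1), (Fin.cons a (Fin.snoc z a) : Fin (n + 2) → X) i.castSucc
      = (Fin.cons a z : Fin (n + 1) → X) i := by
    intro i
    rw [Fin.cons_snoc_eq_snoc_cons, Fin.snoc_castSucc]
  have e2 : ∀ i : Fin (n + 1), (Fin.cons a (Fin.snoc z a) : Fin (n + 2) → X) i.succ
      = (Fin.cons a z : Fin (n + 1) → X) (i + 1) := by
    intro i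
    rw [Fin.cons_succ]
    induction i using Fin.lastCases with
    | last => simp
    | cast j => simp [Fin.coeSucc_eq_succ]
  simp only [e1, e2, Fin.consEquiv, Equiv.coe_fn_mk, Tm, Matrix.of_apply, mul_div]
  rw [Finset.prod_div_distrib, Fintype.card_fun, Fintype.card_fin, Finset.prod_const,
    Finset.card_univ, Fintype.card_fin, Nat.cast_pow]

omit [Nonempty X] in
lemma Bq_eq (n : ℕ) : Bq g n = val (Tm g) (List.replicate (n + 1) 1) := by
  rw [← List.ofFn_const, ← cycle_avg]
  simp [Bq]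

variable {g} (hg : ∀ a b, g a b = g b a)
include hg

omit [Nonempty X] [DecidableEq X] in
lemma Tm_symm : (Tm g)ᵀ = Tm g := by
  ext a b
  simp [Tm, hg a b]

lemma Bq_nonneg {n r : ℕ} (hn : n = 2 * r + 1) : 0 ≤ Bq g n := by
  subst hn
  rw [Bq_eq, show 2 * r + 1 + 1 = 2 * (r + 1) by ring]
  exact val_replicate_nonneg (Tm_symm hg) r

omit hg [DecidableEq X] in
lemma Bq_le {δ : ℝ} (hb : ∀ a b, |g a b| ≤ δ) (n : ℕ) : Bq g n ≤ δ ^ (n + 1) := by
  refine le_trans (le_abs_self _) (le_trans (abs_avg_le _) ?_)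
  refine le_trans (avg_mono (G' := fun _ => δ ^ (n + 1)) fun z => ?_) (le_of_eq (avg_const _))
  rw [Finset.abs_prod]
  refine le_trans (Finset.prod_le_prod (fun _ _ => abs_nonneg _) fun i _ => hb _ _) ?_
  simp

lemma cyc_bound {n r : ℕ} (hn : n = 2 * r + 1) (m : Fin (n + 1) → X → ℝ) (a : Fin (n + 1) → ℝ)
    (ha : ∀ i, 0 < a i) (hm : ∀ i x, |m i x| ≤ a i) :
    |avg fun z : Fin (n + 1) → X => ∏ i, m i (z i) * g (z i) (z (i + 1))|
      ≤ (∏ i, a i) * Bq g n := by
  have e : (fun z : Fin (n + 1) → X => ∏ i, m i (z i) * g (z i) (z (i + 1)))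
      = fun z => (∏ i, a i) * ∏ i, (m i (z i) / a i) * g (z i) (z (i + 1)) := by
    funext z
    rw [← Finset.prod_mul_distrib]
    refine Finset.prod_congr rfl fun i _ => ?_
    field_simp [(ha i).ne']
  have h0 : 0 < ∏ i, a i := Finset.prod_pos fun i _ => ha i
  rw [e, avg_mul_left, abs_mul, abs_of_pos h0]
  refine mul_le_mul_of_nonneg_left ?_ h0.le
  subst hn
  rw [cycle_avg g fun i x => m i x / a i, Bq_eq,
    show List.replicate (2 * r + 1 + 1) (1 : X → ℝ) = List.replicate (2 * (r + 1)) 1 by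
      congr 1]
  refine abs_val_le (Tm_symm hg) _ (by rw [List.length_ofFn]; omega) ?_
  intro f hf x
  obtain ⟨i, rfl⟩ := List.mem_ofFn.1 hf
  rw [abs_div, abs_of_pos (ha i), div_le_one (ha i)]
  exact hm i x

lemma diag_bound {δ : ℝ} (hb : ∀ a b, |g a b| ≤ δ) {n r : ℕ} (hn : n = 2 * r + 1)
    (m : Fin (n + 1) → X → ℝ) (a : Fin (n + 1) → ℝ) (ha : ∀ i, 0 < a i)
    (hm : ∀ i x, |m i x| ≤ a i) (d : X → ℝ) :
    (avg fun z : Fin (n + 1) → X => d (z 0) * ∏ i, m i (z i) * g (z i) (z (i + 1))) ^ 2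
      ≤ (∏ i, a i) ^ 2 * ((avg fun x => d x ^ 2) * δ ^ (n + 1) * Bq g n) := by
  let q : Fin (n + 1) → X → ℝ := fun i x => m i x / a i
  let q' : Fin (n + 1) → X → ℝ := update q 0 fun x => d x * q 0 x
  have e : (fun z : Fin (n + 1) → X => d (z 0) * ∏ i, m i (z i) * g (z i) (z (i + 1)))
      = fun z => (∏ i, a i) * ∏ i, q' i (z i) * g (z i) (z (i + 1)) := by
    funext z
    rw [Fin.prod_univ_succ, Fin.prod_univ_succ (fun i => q' i (z i) * g (z i) (z (i + 1))),
      Fin.prod_univ_succ a]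
    have h : ∀ i : Fin n, q' i.succ = q i.succ := fun i =>
      update_of_ne (Fin.succ_ne_zero i) _ _
    simp only [h, q', update_self, q, Finset.prod_mul_distrib, Finset.prod_div_distrib]
    have := ha 0
    have : ∏ i : Fin n, a i.succ ≠ 0 := Finset.prod_ne_zero_iff.2 fun i _ => (ha _).ne'
    field_simp
  rw [e, avg_mul_left, mul_pow]
  refine mul_le_mul_of_nonneg_left ?_ (sq_nonneg _)
  have hq : val (Tm g) (List.ofFn q') = ∑ x, d x * word (Tm g) (List.ofFn q) x x := by
    rw [val, trace, List.ofFn_succ, List.ofFn_succ (f := q)]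
    refine Finset.sum_congr rfl fun x _ => ?_
    simp [q', diagonal_mul, Matrix.mul_assoc, mul_assoc, update_of_ne]
  rw [cycle_avg, hq]
  have hT : ∀ x y, |Tm g x y| ≤ δ / Fintype.card X := fun x y => by
    simp only [Tm, Matrix.of_apply, abs_div, Nat.abs_cast]
    exact div_le_div_of_nonneg_right (hb x y) (Nat.cast_nonneg _)
  have hq1 : Bdd (List.ofFn q) := by
    intro f hf x
    obtain ⟨i, rfl⟩ := List.mem_ofFn.1 hf
    simp only [q, abs_div, abs_of_pos (ha i), div_le_one (ha i)]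
    exact hm i x
  refine le_trans (sq_sum_diag_le (Tm_symm hg) hT (r := r) _
    (by rw [List.length_ofFn]; omega) hq1 d) (le_of_eq ?_)
  rw [Bq_eq, ← pow_mul, show n + 1 = 2 * (r + 1) by omega]
  simp only [avg]
  ring

omit [DecidableEq X] in
lemma avg_leaf {u v : V} (huv : v ≠ u) (F : (V → X) → ℝ)
    (hF : ∀ x a, F (update x u a) = F x) :
    avg (fun x : V → X => g (x u) (x v) * F x) = avg fun x : V → X => dg g (x v) * F x := by
  rw [avg_update u]
  congr 1
  funext x
  simp only [hF, update_self, update_of_ne huv, avg_mul_right, dg]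
  congr 1
  exact congrArg avg (funext fun a => hg a (x v))

omit hg [DecidableEq X] in
lemma avg_eval (v : V) (h : X → ℝ) : avg (fun x : V → X => h (x v)) = avg h := by
  rw [avg_update v]
  simp only [update_self, avg_const]

omit hg [DecidableEq X] [Nonempty X] in
lemma sq_avg_le (h : X → ℝ) : avg h ^ 2 ≤ avg fun x => h x ^ 2 := by
  rcases isEmpty_or_nonempty X with hX | hX
  · simp [avg]
  have hn : (0 : ℝ) < Fintype.card X := by exact_mod_cast Fintype.card_pos
  rw [avg, avg, div_pow, div_le_div_iff₀ (by positivity) hn]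
  have h2 : (∑ x, h x) ^ 2 ≤ (Fintype.card X : ℝ) * ∑ x, h x ^ 2 := sq_sum_le_card_mul_sum_sq
  nlinarith

omit hg [DecidableEq X] [Nonempty X] [Fintype V] in
lemma abs_prod_ew_le {δ : ℝ} (hb : ∀ a b, |g a b| ≤ δ) (K : Finset (Sym2 V)) (x : V → X) :
    |∏ e ∈ K, ew g x e| ≤ δ ^ K.card := by
  rw [Finset.abs_prod, ← Finset.prod_const]
  exact Finset.prod_le_prod (fun _ _ => abs_nonneg _) fun e _ => hb _ _

omit hg [DecidableEq X] [Nonempty X] [Fintype V] in
lemma prod_ew_update {K : Finset (Sym2 V)} {u : V} (h : ∀ e ∈ K, u ∉ e) (x : V → X) (a : X) :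
    ∏ e ∈ K, ew g (update x u a) e = ∏ e ∈ K, ew g x e :=
  Finset.prod_congr rfl fun e he =>
    dependsOn_ew g e fun w hw => update_of_ne (fun h' => h e he (by subst h'; exact hw)) _ _

omit [DecidableEq X] in
/-- Two pendant edges. -/
theorem two_leaves {δ : ℝ} (hb : ∀ a b, |g a b| ≤ δ) {K : Finset (Sym2 V)} {u v u' v' : V}
    (hu : K.filter (u ∈ ·) = {s(u, v)}) (hu' : K.filter (u' ∈ ·) = {s(u', v')})
    (h1 : v ≠ u) (h2 : v' ≠ u') (h3 : v ≠ u') (huu : u ≠ u') :
    |tK g K| ≤ δ ^ (K.card - 2) * Aq g := by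
  have he : s(u, v) ∈ K ∧ u ∈ s(u, v) := by
    have : s(u, v) ∈ K.filter (u ∈ ·) := by simp [hu]
    simpa using this
  have he' : s(u', v') ∈ K ∧ u' ∈ s(u', v') := by
    have : s(u', v') ∈ K.filter (u' ∈ ·) := by simp [hu']
    simpa using this
  have hne : s(u', v') ≠ s(u, v) := fun h => by
    rcases Sym2.eq_iff.1 h with ⟨h', -⟩ | ⟨h', -⟩
    · exact huu h'.symm
    · exact h3 h'.symm
  let K1 := K.erase s(u, v)
  let K2 := K1.erase s(u', v')
  have hu1 : ∀ e ∈ K1, u ∉ e := fun e he1 hue => by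
    have : e ∈ K.filter (u ∈ ·) := Finset.mem_filter.2 ⟨Finset.mem_of_mem_erase he1, hue⟩
    rw [hu, Finset.mem_singleton] at this
    exact (Finset.mem_erase.1 he1).1 this
  have hu2 : ∀ e ∈ K2, u' ∉ e := fun e he2 hue => by
    have : e ∈ K.filter (u' ∈ ·) :=
      Finset.mem_filter.2 ⟨Finset.mem_of_mem_erase (Finset.mem_of_mem_erase he2), hue⟩
    rw [hu', Finset.mem_singleton] at this
    exact (Finset.mem_erase.1 he2).1 this
  have hmem : s(u', v') ∈ K1 := Finset.mem_erase.2 ⟨hne, he'.1⟩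
  have e1 : tK g K = avg fun x : V → X =>
      dg g (x v') * (dg g (x v) * ∏ e ∈ K2, ew g x e) := by
    rw [tK, ← avg_leaf hg h2 _ (fun x a => by rw [prod_ew_update hu2, update_of_ne h3])]
    simp only [← Finset.mul_prod_erase K _ he.1, ew_mk hg]
    rw [avg_leaf hg h1 _ (fun x a => prod_ew_update hu1 x a)]
    congr 1
    funext x
    simp only [← Finset.mul_prod_erase (K.erase s(u, v)) _ hmem, ew_mk hg, K2, K1]
    ring
  have hcard : K2.card = K.card - 2 := by
    rw [Finset.card_erase_of_mem hmem, Finset.card_erase_of_mem he.1]; omega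
  rw [e1]
  refine le_trans (abs_avg_le _) (le_trans (avg_mono (G' := fun x : V → X =>
    δ ^ (K.card - 2) * ((dg g (x v) ^ 2 + dg g (x v') ^ 2) * (1 / 2))) fun x => ?_) (le_of_eq ?_))
  · have := abs_prod_ew_le (g := g) hb K2 x
    rw [hcard] at this
    rw [abs_mul, abs_mul]
    calc |dg g (x v')| * (|dg g (x v)| * |∏ e ∈ K2, ew g x e|)
        ≤ |dg g (x v')| * (|dg g (x v)| * δ ^ (K.card - 2)) := by gcongr
      _ = δ ^ (K.card - 2) * (|dg g (x v)| * |dg g (x v')|) := by ring
      _ ≤ _ := by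
          refine mul_le_mul_of_nonneg_left ?_ (le_trans (abs_nonneg _) this)
          nlinarith [sq_nonneg (|dg g (x v)| - |dg g (x v')|), sq_abs (dg g (x v)),
            sq_abs (dg g (x v'))]
  · simp only [avg_mul_left, avg_mul_right, avg_add, Aq]
    rw [avg_eval v (fun a => dg g a ^ 2), avg_eval v' (fun a => dg g a ^ 2)]
    ring

omit [DecidableEq X] in
/-- Two adjacent edges. -/
theorem tK_cherry {u u' v : V} (h1 : v ≠ u) (h2 : v ≠ u') (huu : u ≠ u') :
    tK g {s(u, v), s(u', v)} = Aq g := by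
  have hne : s(u, v) ≠ s(u', v) := fun h => huu (Sym2.congr_left.1 h)
  simp only [tK, Finset.prod_pair hne, ew_mk hg]
  rw [avg_leaf hg h1 (fun x : V → X => g (x u') (x v))
    (fun x a => by rw [update_of_ne huu.symm, update_of_ne h1]),
    show (fun x : V → X => dg g (x v) * g (x u') (x v))
      = fun x => g (x u') (x v) * dg g (x v) from funext fun x => mul_comm _ _,
    avg_leaf hg h2 (fun x : V → X => dg g (x v)) (fun x a => by rw [update_of_ne h2])]
  simp only [← sq, Aq]
  exact avg_eval v fun a => dg g a ^ 2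

end

end Vale.Agent.P050.Local
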