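import Vale.Agent.P050.Local.Bounds

/-!
P050, local form: shortest cycles of a connected edge set and the bounds they give.
-/

namespace Vale.Agent.P050.Local

open Finset Function

noncomputable section

attribute [local instance 10] Classical.propDecidable

variable {V X : Type*} [Fintype V] [DecidableEq V] [Fintype X] [DecidableEq X] [Nonempty X]

/-- The position of an edge on a cycle. -/
def pos {n : ℕ} (p : Fin (n + 1) → V) (e : Sym2 V) : Fin (n + 1) :=
  if h : ∃ i, p i ∈ e then h.choose else 0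

/-- No further edge of the set joins two vertices of the cycle. -/
def Chordless {n : ℕ} (p : Fin (n + 1) → V) (K : Finset (Sym2 V)) : Prop :=
  ∀ e ∈ K \ Finset.univ.image (cedge p), ∀ i j, p i ∈ e → p j ∈ e → i = j

/-- The multiplier at a vertex of a cycle. -/
def mult (g : X → X → ℝ) {n : ℕ} (p : Fin (n + 1) → V) (J : Finset (Sym2 V)) (x : V → X)
    (i : Fin (n + 1)) (a : X) : ℝ :=
  ∏ e ∈ J.filter (fun e => pos p e = i), ew g (extend p (fun _ => a) x) e

variable {g : X → X → ℝ} (hg : ∀ a b, g a b = g b a)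
include hg

omit [Fintype V] [Fintype X] [DecidableEq X] [Nonempty X] in
lemma prod_extend {n : ℕ} {p : Fin (n + 1) → V} (hn : 2 ≤ n) (hp : Injective p)
    {K : Finset (Sym2 V)} (hC : Finset.univ.image (cedge p) ⊆ K) (hch : Chordless p K)
    (x : V → X) (z : Fin (n + 1) → X) :
    ∏ e ∈ K, ew g (extend p z x) e
      = ∏ i, mult g p (K \ Finset.univ.image (cedge p)) x i (z i) * g (z i) (z (i + 1)) := by
  rw [← Finset.prod_sdiff hC, Finset.prod_mul_distrib]
  congr 1
  · rw [← Finset.prod_fiberwise (K \ Finset.univ.image (cedge p)) (pos p)]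
    refine Finset.prod_congr rfl fun i _ => Finset.prod_congr rfl fun e he => ?_
    obtain ⟨he1, he2⟩ := Finset.mem_filter.1 he
    refine dependsOn_ew g e fun v hv => ?_
    by_cases hr : ∃ j, p j = v
    · obtain ⟨j, rfl⟩ := hr
      rw [hp.extend_apply, hp.extend_apply]
      have h : ∃ i, p i ∈ e := ⟨j, hv⟩
      rw [pos, dif_pos h] at he2
      rw [hch e he1 j i hv (he2 ▸ h.choose_spec)]
    · rw [extend_apply' _ _ _ hr, extend_apply' _ _ _ hr]
  · rw [Finset.prod_image fun a _ b _ h => cedge_injective hn hp h]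
    refine Finset.prod_congr rfl fun i _ => ?_
    rw [cedge, ew_mk hg, hp.extend_apply, hp.extend_apply]

omit [DecidableEq X] in
lemma tK_eq_avg {n : ℕ} {p : Fin (n + 1) → V} (hn : 2 ≤ n) (hp : Injective p)
    {K : Finset (Sym2 V)} (hC : Finset.univ.image (cedge p) ⊆ K) (hch : Chordless p K) :
    tK g K = avg fun x : V → X => avg fun z : Fin (n + 1) → X =>
      ∏ i, mult g p (K \ Finset.univ.image (cedge p)) x i (z i) * g (z i) (z (i + 1)) := by
  rw [tK, avg_extend p hp]
  simp only [prod_extend hg hn hp hC hch]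

omit [DecidableEq X] in
lemma tK_cyc {n : ℕ} {p : Fin (n + 1) → V} (hn : 2 ≤ n) (hp : Injective p) :
    tK g (Finset.univ.image (cedge p)) = Bq g n := by
  rw [tK_eq_avg hg hn hp subset_rfl (fun e he => by simp at he)]
  simp [mult, Bq, avg_const]

omit hg [Fintype V] [Fintype X] [DecidableEq X] [Nonempty X] in
lemma abs_mult_le {δ : ℝ} (hb : ∀ a b, |g a b| ≤ δ) {n : ℕ} (p : Fin (n + 1) → V)
    (J : Finset (Sym2 V)) (x : V → X) (i : Fin (n + 1)) (a : X) :
    |mult g p J x i a| ≤ δ ^ (J.filter (fun e => pos p e = i)).card := by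
  rw [mult, Finset.abs_prod, ← Finset.prod_const]
  exact Finset.prod_le_prod (fun _ _ => abs_nonneg _) fun e _ => hb _ _

omit hg [Fintype V] [Fintype X] [DecidableEq X] [Nonempty X] in
lemma prod_pow_fiber (δ : ℝ) {n : ℕ} (p : Fin (n + 1) → V) (J : Finset (Sym2 V)) :
    ∏ i, δ ^ (J.filter (fun e => pos p e = i)).card = δ ^ J.card := by
  rw [Finset.prod_pow_eq_pow_sum, ← Finset.card_eq_sum_card_fiberwise]
  simp

/-- A connected edge set around a chordless cycle. -/
theorem leafless_bound {δ : ℝ} (hδ : 0 < δ) (hb : ∀ a b, |g a b| ≤ δ) {n r : ℕ}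
    (hr : n = 2 * r + 1) {p : Fin (n + 1) → V} (hn : 2 ≤ n) (hp : Injective p)
    {K : Finset (Sym2 V)} (hC : Finset.univ.image (cedge p) ⊆ K) (hch : Chordless p K) :
    |tK g K| ≤ δ ^ (K \ Finset.univ.image (cedge p)).card * Bq g n := by
  rw [tK_eq_avg hg hn hp hC hch]
  refine le_trans (abs_avg_le _) (le_trans (avg_mono fun x => ?_) (le_of_eq (avg_const _)))
  refine le_trans (cyc_bound hg hr _ _ (fun i => pow_pos hδ _)
    (fun i a => abs_mult_le hb p _ x i a)) ?_
  rw [prod_pow_fiber]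

lemma one_leaf_sq {δ : ℝ} (hδ : 0 < δ) (hb : ∀ a b, |g a b| ≤ δ) {n r : ℕ}
    (hr : n = 2 * r + 1) {p : Fin (n + 1) → V} (hn : 2 ≤ n) (hp : Injective p)
    {K : Finset (Sym2 V)} (hC : Finset.univ.image (cedge p) ⊆ K) (hch : Chordless p K)
    (v : V) (hv : v = p 0 ∨ ∀ i, p i ≠ v) :
    (avg fun x : V → X => dg g (x v) * ∏ e ∈ K, ew g x e) ^ 2
      ≤ (δ ^ (K \ Finset.univ.image (cedge p)).card) ^ 2 * (Aq g * δ ^ (n + 1) * Bq g n) := by
  set J := K \ Finset.univ.image (cedge p)
  have hA : 0 ≤ Aq g :=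
    div_nonneg (Finset.sum_nonneg fun _ _ => sq_nonneg _) (Nat.cast_nonneg _)
  have hB := Bq_nonneg hg hr
  have hBle := Bq_le hb n
  rw [avg_extend p hp]
  simp only [prod_extend hg hn hp hC hch]
  rcases hv with rfl | hv
  · simp only [hp.extend_apply]
    set R := (δ ^ J.card) ^ 2 * (Aq g * δ ^ (n + 1) * Bq g n)
    have hR : 0 ≤ R := by positivity
    have key : ∀ x : V → X, |avg fun z : Fin (n + 1) → X =>
        dg g (z 0) * ∏ i, mult g p J x i (z i) * g (z i) (z (i + 1))| ≤ Real.sqrt R := by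
      intro x
      refine Real.abs_le_sqrt (le_trans (diag_bound hg hb hr _ _ (fun i => pow_pos hδ _)
        (fun i a => abs_mult_le hb p _ x i a) (dg g)) (le_of_eq ?_))
      rw [prod_pow_fiber]
      rfl
    rw [← sq_abs]
    refine le_trans (pow_le_pow_left₀ (abs_nonneg _)
      (le_trans (abs_avg_le _) (le_trans (avg_mono key) (le_of_eq (avg_const _)))) 2) ?_
    rw [Real.sq_sqrt hR]
  · have hh : ∀ (z : Fin (n + 1) → X) (x : V → X), extend p z x v = x v := fun z x =>
      extend_apply' z x v (fun ⟨i, hi⟩ => hv i hi)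
    simp only [hh, avg_mul_left]
    have key : ∀ x : V → X, |dg g (x v) * avg fun z : Fin (n + 1) → X =>
        ∏ i, mult g p J x i (z i) * g (z i) (z (i + 1))| ≤ |dg g (x v)| * (δ ^ J.card * Bq g n) := by
      intro x
      rw [abs_mul]
      refine mul_le_mul_of_nonneg_left (le_trans (cyc_bound hg hr _ _ (fun i => pow_pos hδ _)
        (fun i a => abs_mult_le hb p _ x i a)) ?_) (abs_nonneg _)
      rw [prod_pow_fiber]
    rw [← sq_abs]
    refine le_trans (pow_le_pow_left₀ (abs_nonneg _) (le_trans (abs_avg_le _) (avg_mono key)) 2) ?_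
    rw [avg_mul_right, avg_eval v fun a => |dg g a|, mul_pow, mul_pow]
    have h1 : avg (fun a => |dg g a|) ^ 2 ≤ Aq g := by
      refine le_trans (sq_avg_le _) (le_of_eq ?_)
      simp [Aq]
    calc avg (fun a => |dg g a|) ^ 2 * ((δ ^ J.card) ^ 2 * Bq g n ^ 2)
        ≤ Aq g * ((δ ^ J.card) ^ 2 * (δ ^ (n + 1) * Bq g n)) := by
          refine mul_le_mul h1 ?_ (by positivity) hA
          rw [sq (Bq g n)]
          gcongr
      _ = _ := by ring

/-- A connected edge set with a pendant edge and a cycle. -/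
theorem one_leaf_bound {δ η : ℝ} (hδ : 0 < δ) (hη : 0 < η) (hb : ∀ a b, |g a b| ≤ δ) {n r : ℕ}
    (hr : n = 2 * r + 1) {p : Fin (n + 1) → V} (hn : 2 ≤ n) (hp : Injective p)
    {K : Finset (Sym2 V)} (hC : Finset.univ.image (cedge p) ⊆ K) (hch : Chordless p K)
    {u v : V} (hvu : v ≠ u) (hu : K.filter (u ∈ ·) = {s(u, v)}) :
    |tK g K| ≤ δ ^ (K \ Finset.univ.image (cedge p)).card
      * (η * Bq g n + δ ^ (n - 1) * Aq g / η) := by
  have he : s(u, v) ∈ K := by
    have : s(u, v) ∈ K.filter (u ∈ ·) := by simp [hu]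
    exact (Finset.mem_filter.1 this).1
  have hec : s(u, v) ∉ Finset.univ.image (cedge p) := by
    intro h
    have h1 := deg_mono hC u
    have h2 := IsCyc.deg_eq ⟨n, p, hn, hp, rfl⟩ u
    have h3 : deg K u = 1 := by rw [deg, hu, Finset.card_singleton]
    have h4 : 0 < deg (Finset.univ.image (cedge p)) u :=
      deg_pos.2 (mem_verts.2 ⟨_, h, Sym2.mem_mk_left _ _⟩)
    omega
  let K1 := K.erase s(u, v)
  have hC1 : Finset.univ.image (cedge p) ⊆ K1 := fun e h =>
    Finset.mem_erase.2 ⟨fun h' => hec (h' ▸ h), hC h⟩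
  have hu1 : ∀ e ∈ K1, u ∉ e := fun e he1 hue => by
    have : e ∈ K.filter (u ∈ ·) := Finset.mem_filter.2 ⟨Finset.mem_of_mem_erase he1, hue⟩
    rw [hu, Finset.mem_singleton] at this
    exact (Finset.mem_erase.1 he1).1 this
  have e1 : tK g K = avg fun x : V → X => dg g (x v) * ∏ e ∈ K1, ew g x e := by
    simp only [tK, ← Finset.mul_prod_erase K _ he, ew_mk hg]
    rw [avg_leaf hg hvu _ (fun x a => prod_ew_update hu1 x a)]
  -- rotate so that `v` comes first if it is on the cycle
  obtain ⟨q, hq, hqC, hqch, hqv⟩ : ∃ q : Fin (n + 1) → V, Injective q ∧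
      Finset.univ.image (cedge q) = Finset.univ.image (cedge p) ∧ Chordless q K1 ∧
      (v = q 0 ∨ ∀ i, q i ≠ v) := by
    by_cases hr : ∃ i, p i = v
    · obtain ⟨i₀, rfl⟩ := hr
      have him : Finset.univ.image (cedge fun i => p (i + i₀)) = Finset.univ.image (cedge p) := by
        ext e
        simp only [Finset.mem_image, Finset.mem_univ, true_and, cedge]
        constructor
        · rintro ⟨i, rfl⟩; exact ⟨i + i₀, by rw [add_right_comm]⟩
        · rintro ⟨i, rfl⟩; exact ⟨i - i₀, by rw [add_right_comm, sub_add_cancel]⟩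
      refine ⟨fun i => p (i + i₀), fun a b h => add_right_cancel (hp h), him, ?_,
        Or.inl (by simp)⟩
      intro e hem i j hi hj
      rw [him] at hem
      exact add_right_cancel (hch e (Finset.mem_sdiff.2 ⟨Finset.mem_of_mem_erase
        (Finset.mem_sdiff.1 hem).1, (Finset.mem_sdiff.1 hem).2⟩) _ _ hi hj)
    · refine ⟨p, hp, rfl, ?_, Or.inr fun i h => hr ⟨i, h⟩⟩
      intro e hem
      exact hch e (Finset.mem_sdiff.2 ⟨Finset.mem_of_mem_erase (Finset.mem_sdiff.1 hem).1,
        (Finset.mem_sdiff.1 hem).2⟩)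
  have key := one_leaf_sq hg hδ hb hr hn hq (hqC ▸ hC1) hqch v hqv
  rw [← e1, hqC] at key
  have hcard : (K \ Finset.univ.image (cedge p)).card
      = (K1 \ Finset.univ.image (cedge p)).card + 1 := by
    rw [Finset.erase_sdiff_comm, Finset.card_erase_add_one (Finset.mem_sdiff.2 ⟨he, hec⟩)]
  rw [hcard]
  set j := (K1 \ Finset.univ.image (cedge p)).card
  have hA : 0 ≤ Aq g :=
    div_nonneg (Finset.sum_nonneg fun _ _ => sq_nonneg _) (Nat.cast_nonneg _)
  have hB := Bq_nonneg hg hr
  refine abs_le_of_sq_le_sq (key.trans ?_) (by positivity)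
  have hxy : ∀ x y : ℝ, 0 ≤ x → 0 ≤ y → x * y ≤ (x + y) ^ 2 := fun x y hx hy => by nlinarith
  refine le_trans (le_of_eq ?_) (le_trans (hxy (δ ^ (j + 1) * (η * Bq g n))
    (δ ^ (j + 1) * (δ ^ (n - 1) * Aq g / η)) (by positivity) (by positivity)) (le_of_eq ?_))
  · have : n + 1 = n - 1 + 2 := by omega
    rw [this, pow_add]
    field_simp
    ring
  · ring

omit hg [Fintype V] [Fintype X] [DecidableEq X] [Nonempty X] in
/-- A shortest cycle has no chord. -/
theorem exists_chordless {K : Finset (Sym2 V)} (h : ∃ C ⊆ K, IsCyc C) :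
    ∃ (n : ℕ) (p : Fin (n + 1) → V), 2 ≤ n ∧ Injective p ∧ Finset.univ.image (cedge p) ⊆ K ∧
      Chordless p K ∧ ∀ C' ⊆ K, IsCyc C' → n + 1 ≤ C'.card := by
  obtain ⟨C₀, hC₀, hC₀c⟩ := h
  obtain ⟨C, hC, hmin⟩ := Finset.exists_min_image (K.powerset.filter IsCyc) Finset.card
    ⟨C₀, Finset.mem_filter.2 ⟨Finset.mem_powerset.2 hC₀, hC₀c⟩⟩
  obtain ⟨hCK, n, p, hn, hp, rfl⟩ := Finset.mem_filter.1 hC
  rw [Finset.mem_powerset] at hCK
  have hmin' : ∀ C' ⊆ K, IsCyc C' → n + 1 ≤ C'.card := fun C' h h' => by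
    have := hmin C' (Finset.mem_filter.2 ⟨Finset.mem_powerset.2 h, h'⟩)
    rwa [card_cyc hn hp] at this
  refine ⟨n, p, hn, hp, hCK, ?_, hmin'⟩
  have main : ∀ e ∈ K, e ∉ Finset.univ.image (cedge p) → ∀ i j : Fin (n + 1), i < j →
      p i ∈ e → p j ∈ e → False := by
    intro e he hne i j hij hi hj
    have hpe : e = s(p i, p j) := (Sym2.mem_and_mem_iff fun h => hij.ne (hp h)).1 ⟨hi, hj⟩
    have hij' : (i : ℕ) < j := hij
    obtain ⟨m, hm⟩ : ∃ m, (j : ℕ) = i + m := ⟨j - i, by omega⟩
    by_cases h1 : m = 1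
    · refine hne (Finset.mem_image.2 ⟨i, Finset.mem_univ _, ?_⟩)
      rw [hpe, cedge, show i + 1 = j from Fin.ext (by
        rw [Fin.val_add_one_of_lt (show i < Fin.last n from lt_of_lt_of_le hij (Fin.le_last j))]
        omega)]
    by_cases h2 : m = n
    · refine hne (Finset.mem_image.2 ⟨j, Finset.mem_univ _, ?_⟩)
      have hjn : j = Fin.last n := Fin.ext (by simp; omega)
      have hi0 : i = 0 := Fin.ext (by rw [Fin.val_zero]; omega)
      rw [hpe, cedge, hjn, Fin.last_add_one, hi0, Sym2.eq_swap]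
    let q : Fin (m + 1) → V := fun k => p ⟨i + k, by omega⟩
    have hq : Injective q := fun a b hab => by
      have := congrArg Fin.val (hp hab)
      exact Fin.ext (by simpa using this)
    have hsub : Finset.univ.image (cedge q) ⊆ K := by
      intro f hf
      obtain ⟨k, -, rfl⟩ := Finset.mem_image.1 hf
      rcases eq_or_ne k (Fin.last m) with rfl | hk
      · have : cedge q (Fin.last m) = e := by
          rw [hpe, cedge, Fin.last_add_one, Sym2.eq_swap]
          simp [q, ← hm]
        exact this ▸ he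
      · have hk' : (k : ℕ) < m := by
          have := Fin.val_ne_of_ne hk; simp at this; omega
        refine hCK (Finset.mem_image.2 ⟨⟨i + k, by omega⟩, Finset.mem_univ _, ?_⟩)
        simp only [cedge, q]
        congr 2
        congr 1
        refine Fin.ext ?_
        rw [Fin.val_add_one_of_lt (show (⟨i + k, by omega⟩ : Fin (n + 1)) < Fin.last n by
          rw [Fin.lt_def]; simp; omega)]
        simp only [Fin.val_add_one_of_lt (show k < Fin.last m by rw [Fin.lt_def]; simpa using hk')]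
        omega
    have := hmin' _ hsub ⟨m, q, by omega, hq, rfl⟩
    rw [card_cyc (by omega) hq] at this
    omega
  intro e he i j hi hj
  obtain ⟨he1, he2⟩ := Finset.mem_sdiff.1 he
  rcases lt_trichotomy i j with h | h | h
  · exact (main e he1 he2 i j h hi hj).elim
  · exact h
  · exact (main e he1 he2 j i h hj hi).elim

omit hg [Fintype V] [Fintype X] [DecidableEq X] [Nonempty X] in
/-- Cycles of a two-coloured edge set are even. -/
theorem cyc_even {n : ℕ} {p : Fin (n + 1) → V} {E : Finset (Sym2 V)} (c : V → Bool)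
    (hc : ∀ u v, s(u, v) ∈ E → c u ≠ c v) (hC : Finset.univ.image (cedge p) ⊆ E) :
    ∃ r, n = 2 * r + 1 := by
  have h : ∀ i, c (p (i + 1)) = !(c (p i)) := fun i => by
    have := hc _ _ (hC (Finset.mem_image.2 ⟨i, Finset.mem_univ _, rfl⟩))
    revert this; cases c (p i) <;> cases c (p (i + 1)) <;> simp
  have key : ∀ i : Fin (n + 1), c (p i) = Bool.xor (c (p 0)) (decide ((i : ℕ) % 2 = 1)) := by
    intro i
    induction i using Fin.induction with
    | zero => simp
    | succ i ih =>
      have h1 := h i.castSucc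
      rw [Fin.coeSucc_eq_succ, ih] at h1
      rw [h1]
      simp only [Fin.val_succ, Fin.val_castSucc]
      rcases Nat.mod_two_eq_zero_or_one (i : ℕ) with h2 | h2 <;>
        simp [h2, Nat.add_mod]
  have hlast := h (Fin.last n)
  rw [Fin.last_add_one, key (Fin.last n)] at hlast
  refine ⟨n / 2, ?_⟩
  rcases Nat.mod_two_eq_zero_or_one n with h2 | h2
  · simp [h2] at hlast
  · omega

end

end Vale.Agent.P050.Local
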