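import Vale.Agent.P050.Local.Main

/-!
P050, local form: the finite form of the local Sidorenko inequality.
-/

namespace Vale.Agent.P050.Local

open Finset Function Set

noncomputable section

attribute [local instance 10] Classical.propDecidable

variable {V X : Type*} [Fintype V] [DecidableEq V] [Fintype X] [DecidableEq X] [Nonempty X]
  {g : X → X → ℝ}

/-- The local inequality for kernels on a finite uniform space. -/
theorem one_le_Xi (hg : ∀ a b, g a b = g b a) {δ : ℝ} (hδ : 0 < δ) (hb : ∀ a b, |g a b| ≤ δ)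
    (hmean : avg (dg g) = 0) {E : Finset (Sym2 V)} (hl : Loopless E) (c : V → Bool)
    (hc : ∀ u v, s(u, v) ∈ E → c u ≠ c v) {Δ : ℕ} (hΔ : 1 ≤ Δ) (hdeg : ∀ v, deg E v ≤ Δ)
    (hsmall : δ * Δ ≤ 1 / 2 ^ 24) : 1 ≤ Xi g E := by
  let F : ℝ → ℝ := fun s => avg fun x : V → X => ∏ e ∈ E, (1 + s * ew g x e)
  let F' : ℝ → ℝ := fun s => avg fun x : V → X =>
    ∑ e ∈ E, (∏ e' ∈ E.erase e, (1 + s * ew g x e')) • ew g x e
  have hF : ∀ s, HasDerivAt F (F' s) s := by
    intro s
    refine HasDerivAt.div_const (HasDerivAt.fun_sum fun x _ => ?_) _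
    refine HasDerivAt.fun_finsetProd fun e _ => ?_
    simpa using ((hasDerivAt_id s).mul_const (ew g x e)).const_add 1
  have hpos : ∀ s ∈ Ioo (0 : ℝ) 1, 0 ≤ F' s := by
    intro s hs
    have hb' : ∀ a b, |s * g a b| ≤ δ := fun a b => by
      rw [abs_mul, abs_of_pos hs.1]
      exact le_trans (mul_le_of_le_one_left (abs_nonneg _) hs.2.le) (hb a b)
    have hmean' : avg (dg fun a b => s * g a b) = 0 := by
      have : dg (fun a b => s * g a b) = fun a => s * dg g a := funext fun a => avg_mul_left s _
      rw [this, avg_mul_left, hmean, mul_zero]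
    have h := dsum_nonneg (g := fun a b => s * g a b) (fun a b => by simp only [hg a b]) hδ hb'
      hmean' hl c hc hΔ hdeg hsmall
    have e : dsum (fun a b => s * g a b) E = s * F' s := by
      simp only [dsum, F', ← avg_mul_left, ← avg_sum]
      congr 1
      funext x
      rw [Finset.mul_sum]
      refine Finset.sum_congr rfl fun e _ => ?_
      simp only [ew, smul_eq_mul]
      ring
    rw [e] at h
    exact (mul_nonneg_iff_of_pos_left hs.1).1 h
  have hmono : MonotoneOn F (Icc 0 1) :=
    monotoneOn_of_hasDerivWithinAt_nonneg (convex_Icc _ _)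
      (fun s _ => (hF s).continuousAt.continuousWithinAt)
      (fun s _ => (hF s).hasDerivWithinAt) (by rw [interior_Icc]; exact hpos)
  have h01 := hmono (left_mem_Icc.2 zero_le_one) (right_mem_Icc.2 zero_le_one) zero_le_one
  simpa [F, Xi, avg_const] using h01

end

end Vale.Agent.P050.Local
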