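import Vale.Agent.P050.Local.Cycle

/-!
P050, local form: the first variation is nonnegative.
-/

namespace Vale.Agent.P050.Local

open Finset Function

noncomputable section

attribute [local instance 10] Classical.propDecidable

variable {V X : Type*} [Fintype V] [DecidableEq V] [Fintype X] [DecidableEq X] [Nonempty X]

omit [Fintype V] in
lemma exists_cherry_sub {K : Finset (Sym2 V)} (hK : Conn K) (h2 : 2 ≤ K.card)
    {a : Sym2 V} (ha : a ∈ K) : ∃ d ∈ K, d ≠ a ∧ Meet a d := by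
  obtain ⟨b, hb, hba⟩ := Finset.exists_mem_ne (by omega : 1 < K.card) a
  have key : ∀ c, Reach K a c → c ≠ a → ∃ d ∈ K, d ≠ a ∧ Meet a d := by
    intro c h
    induction h with
    | refl => exact fun h => absurd rfl h
    | @tail b' c' _ hs ih =>
      intro hc
      by_cases hb' : b' = a
      · subst hb'; exact ⟨c', hs.2.1, hc, hs.2.2⟩
      · exact ih hb'
  exact key b (hK.2 a ha b hb) hba

omit [Fintype V] in
lemma conn_pair {a d : Sym2 V} (h : Meet a d) : Conn ({a, d} : Finset (Sym2 V)) := by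
  have h1 : Reach ({a, d} : Finset (Sym2 V)) a d :=
    Relation.ReflTransGen.single ⟨by simp, by simp, h⟩
  refine ⟨by simp, fun x hx y hy => ?_⟩
  simp only [Finset.mem_insert, Finset.mem_singleton] at hx hy
  rcases hx with rfl | rfl <;> rcases hy with rfl | rfl
  · exact Relation.ReflTransGen.refl
  · exact h1
  · exact h1.symm
  · exact Relation.ReflTransGen.refl

/-- The connected pairs. -/
def Ch (E : Finset (Sym2 V)) : Finset (Finset (Sym2 V)) :=
  (connSets E).filter fun K => K.card = 2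

/-- The cycles. -/
def Cy (E : Finset (Sym2 V)) : Finset (Finset (Sym2 V)) := (connSets E).filter IsCyc

/-- The other connected sets. -/
def Er (E : Finset (Sym2 V)) : Finset (Finset (Sym2 V)) :=
  (connSets E).filter fun K => 3 ≤ K.card ∧ ¬IsCyc K

/-- The cycle density of an edge set. -/
def Bc (g : X → X → ℝ) (C : Finset (Sym2 V)) : ℝ := Bq g (C.card - 1)

lemma leaf_edge {K : Finset (Sym2 V)} (hl : Loopless K) {u : V} (hu : deg K u = 1) :
    ∃ v, v ≠ u ∧ K.filter (u ∈ ·) = {s(u, v)} := by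
  obtain ⟨e, he⟩ := Finset.card_eq_one.1 hu
  have : e ∈ K ∧ u ∈ e := by
    have : e ∈ K.filter (u ∈ ·) := by simp [he]
    simpa using this
  obtain ⟨v, rfl⟩ := this.2
  exact ⟨v, fun h => hl _ this.1 (Sym2.mk_isDiag_iff.2 h.symm), he⟩

lemma leaf_nbr {K : Finset (Sym2 V)} (hK : Conn K) (h2 : 2 ≤ K.card) {u v : V}
    (he : K.filter (u ∈ ·) = {s(u, v)}) : 2 ≤ deg K v := by
  have hs : s(u, v) ∈ K := by
    have : s(u, v) ∈ K.filter (u ∈ ·) := by simp [he]
    exact (Finset.mem_filter.1 this).1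
  obtain ⟨d, hd, hne, w, hw1, hw2⟩ := exists_cherry_sub hK h2 hs
  rcases Sym2.mem_iff.1 hw1 with rfl | rfl
  · have : d ∈ K.filter (w ∈ ·) := Finset.mem_filter.2 ⟨hd, hw2⟩
    rw [he, Finset.mem_singleton] at this
    exact absurd this hne
  · rw [deg, ← Finset.card_pair hne]
    exact Finset.card_le_card (by
      intro f hf
      simp only [Finset.mem_insert, Finset.mem_singleton] at hf
      rcases hf with rfl | rfl
      · exact Finset.mem_filter.2 ⟨hd, hw2⟩
      · exact Finset.mem_filter.2 ⟨hs, Sym2.mem_mk_right _ _⟩)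

/-- Two cycles in a connected set without leaves give `3/2` times the girth many edges. -/
lemma leafless_card {K C : Finset (Sym2 V)} (hK : Conn K) (hl : Loopless K) (hC : IsCyc C)
    (hCK : C ⊆ K) (hne : C ≠ K) (hmin : ∀ C' ⊆ K, IsCyc C' → C.card ≤ C'.card)
    (hdeg : ∀ v, deg K v ≠ 1) : 3 * C.card ≤ 2 * K.card := by
  have hJ : (K \ C).Nonempty :=
    Finset.sdiff_nonempty.2 fun h => hne (Finset.Subset.antisymm hCK h)
  obtain ⟨a, ha⟩ := hJ
  obtain ⟨b, hb, -, v, hv, hvb⟩ := rooted_sdiff hK hCK hC.conn.1 a ha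
  have hv2 : deg C v = 2 := (hC.deg_eq v).resolve_left (deg_pos.2 hv).ne'
  have hv3 : 3 ≤ deg K v := by
    obtain ⟨hb1, hb2⟩ := Finset.mem_sdiff.1 hb
    have hlt : C.filter (v ∈ ·) ⊂ K.filter (v ∈ ·) :=
      (Finset.ssubset_iff_of_subset (Finset.filter_subset_filter _ hCK)).2
        ⟨b, Finset.mem_filter.2 ⟨hb1, hvb⟩, fun h => hb2 (Finset.mem_filter.1 h).1⟩
    have := Finset.card_lt_card hlt
    unfold deg at hv2 ⊢
    omega
  have hcount : (verts K).card < K.card := by
    have h1 : ∑ _w ∈ verts K, 2 < ∑ w ∈ verts K, deg K w := by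
      refine Finset.sum_lt_sum (fun w hw => ?_) ⟨v, mem_verts.2 ⟨b, (Finset.mem_sdiff.1 hb).1, hvb⟩,
        by omega⟩
      have := deg_pos.2 hw
      have := hdeg w
      omega
    rw [sum_deg_verts hl, Finset.sum_const, smul_eq_mul] at h1
    omega
  obtain ⟨e₀, he₀⟩ := hC.conn.1
  have hsub : K.erase e₀ ⊆ K := Finset.erase_subset _ _
  have hcard := Finset.card_erase_of_mem (hCK he₀)
  have hv' : verts (K.erase e₀) ⊆ verts K := fun w hw => by
    obtain ⟨f, hf, hwf⟩ := mem_verts.1 hw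
    exact mem_verts.2 ⟨f, hsub hf, hwf⟩
  have h3 := hC.three_le
  have h4 := Finset.card_le_card hCK
  obtain ⟨C', hC', hC'c⟩ := exists_cyc_of_card (K := K.erase e₀) (fun f hf => hl f (hsub hf))
    (Finset.card_pos.1 (by omega)) (by have := Finset.card_le_card hv'; omega)
  have he' : e₀ ∉ C' := fun h => (Finset.mem_erase.1 (hC' h)).1 rfl
  let D := (C \ C') ∪ (C' \ C)
  have hD : ∀ w, deg D w ≠ 1 := by
    intro w
    have e1 := Finset.card_sdiff_add_card_inter (C.filter (w ∈ ·)) (C'.filter (w ∈ ·))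
    have e2 := Finset.card_sdiff_add_card_inter (C'.filter (w ∈ ·)) (C.filter (w ∈ ·))
    rw [Finset.inter_comm (C'.filter (w ∈ ·))] at e2
    have e3 : D.filter (w ∈ ·)
        = (C.filter (w ∈ ·) \ C'.filter (w ∈ ·)) ∪ (C'.filter (w ∈ ·) \ C.filter (w ∈ ·)) := by
      ext f; simp [D]; tauto
    have e4 : deg D w = (C.filter (w ∈ ·) \ C'.filter (w ∈ ·)).card
        + (C'.filter (w ∈ ·) \ C.filter (w ∈ ·)).card := by
      rw [deg, e3, Finset.card_union_of_disjoint disjoint_sdiff_sdiff]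
    have c1 := hC.deg_eq w
    have c2 := hC'c.deg_eq w
    unfold deg at c1 c2
    omega
  have hDK : D ⊆ K := Finset.union_subset (Finset.sdiff_subset.trans hCK)
    (Finset.sdiff_subset.trans (hC'.trans hsub))
  obtain ⟨C'', hC'', hC''c⟩ := exists_cyc_of_no_leaf (fun f hf => hl f (hDK hf))
    ⟨e₀, Finset.mem_union_left _ (Finset.mem_sdiff.2 ⟨he₀, he'⟩)⟩ hD
  have d1 := (hmin _ (hC''.trans hDK) hC''c).trans (Finset.card_le_card hC'')
  have d2 := hmin _ (hC'.trans hsub) hC'c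
  have d3 : D.card = (C \ C').card + (C' \ C).card :=
    Finset.card_union_of_disjoint disjoint_sdiff_sdiff
  have d4 := Finset.card_sdiff_add_card C C'
  have d5 := Finset.card_sdiff_add_card_inter C C'
  have d6 := Finset.card_sdiff_add_card_inter C' C
  rw [Finset.inter_comm C'] at d6
  have d7 : (C ∪ C').card ≤ K.card :=
    Finset.card_le_card (Finset.union_subset hCK (hC'.trans hsub))
  omega

variable {g : X → X → ℝ}

/-- The three cases. -/
theorem classify (hg : ∀ a b, g a b = g b a) {δ : ℝ} (hδ : 0 < δ) (hb : ∀ a b, |g a b| ≤ δ)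
    {E : Finset (Sym2 V)} (hl : Loopless E) (c : V → Bool)
    (hc : ∀ u v, s(u, v) ∈ E → c u ≠ c v) {K : Finset (Sym2 V)} (hK : K ∈ Er E) :
    (∃ C ∈ Ch E, C ⊆ K ∧ |tK g K| ≤ δ ^ (K \ C).card * Aq g) ∨
    (∃ C ∈ Cy E, C ⊆ K ∧ |tK g K| ≤ δ ^ (K \ C).card *
      ((1 / 64) ^ C.card * Bc g C + δ ^ (C.card - 2) * Aq g / (1 / 64) ^ C.card)) ∨
    (∃ C ∈ Cy E, C ⊆ K ∧ C.card ≤ 2 * (K \ C).card ∧ |tK g K| ≤ δ ^ (K \ C).card * Bc g C) := by
  simp only [Er, connSets, Finset.mem_filter, Finset.mem_powerset] at hK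
  obtain ⟨⟨hKE, hKc⟩, hk3, hncyc⟩ := hK
  have hlK : Loopless K := fun e he => hl e (hKE he)
  let Lf := (verts K).filter fun v => deg K v = 1
  rcases Nat.lt_or_ge 1 Lf.card with hL | hL
  · left
    obtain ⟨u, hu, u', hu', huu⟩ := Finset.one_lt_card.1 hL
    obtain ⟨v, hvu, he⟩ := leaf_edge hlK (Finset.mem_filter.1 hu).2
    obtain ⟨v', hvu', he'⟩ := leaf_edge hlK (Finset.mem_filter.1 hu').2
    have h3 : v ≠ u' := by
      rintro rfl
      have := leaf_nbr hKc (by omega) he
      have := (Finset.mem_filter.1 hu').2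
      omega
    obtain ⟨a, ha⟩ := hKc.1
    obtain ⟨d, hd, hne, hm⟩ := exists_cherry_sub hKc (by omega) ha
    have hsub : ({a, d} : Finset (Sym2 V)) ⊆ K := by
      simp [Finset.insert_subset_iff, ha, hd]
    refine ⟨{a, d}, ?_, hsub, ?_⟩
    · simp only [Ch, connSets, Finset.mem_filter, Finset.mem_powerset]
      exact ⟨⟨hsub.trans hKE, conn_pair hm⟩, Finset.card_pair hne.symm⟩
    · rw [Finset.card_sdiff_of_subset hsub, Finset.card_pair hne.symm]
      exact two_leaves hg hb he he' hvu hvu' h3 huu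
  right
  have hcnt : (verts K).card ≤ K.card := by
    have h1 : ∑ _v ∈ verts K, 2 ≤ ∑ v ∈ verts K, (deg K v + if deg K v = 1 then 1 else 0) := by
      refine Finset.sum_le_sum fun v hv => ?_
      have := deg_pos.2 hv
      split_ifs <;> omega
    rw [Finset.sum_add_distrib, sum_deg_verts hlK, Finset.sum_const, smul_eq_mul,
      ← Finset.card_filter] at h1
    change _ ≤ 2 * K.card + Lf.card at h1
    omega
  obtain ⟨n, p, hn, hp, hCK, hch, hmin⟩ :=
    exists_chordless (exists_cyc_of_card hlK hKc.1 hcnt)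
  obtain ⟨r, hr⟩ := cyc_even c hc (hCK.trans hKE)
  set C := Finset.univ.image (cedge p)
  have hCc : IsCyc C := ⟨n, p, hn, hp, rfl⟩
  have hcard : C.card = n + 1 := card_cyc hn hp
  have hBc : Bc g C = Bq g n := by rw [Bc, hcard]; rfl
  have hmem : C ∈ Cy E := by
    simp only [Cy, connSets, Finset.mem_filter, Finset.mem_powerset]
    exact ⟨⟨hCK.trans hKE, hCc.conn⟩, hCc⟩
  rcases Nat.eq_zero_or_pos Lf.card with h0 | h0
  · right
    have hdeg : ∀ v, deg K v ≠ 1 := fun v hv => by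
      have : v ∈ Lf := Finset.mem_filter.2 ⟨deg_pos.1 (by omega), hv⟩
      simp [Finset.card_eq_zero.1 h0] at this
    have hne : C ≠ K := fun h => hncyc (h ▸ hCc)
    have h32 := leafless_card hKc hlK hCc hCK hne
      (fun C' h h' => by rw [hcard]; exact hmin C' h h') hdeg
    refine ⟨C, hmem, hCK, ?_, ?_⟩
    · rw [Finset.card_sdiff_of_subset hCK]; omega
    · rw [hBc]; exact leafless_bound hg hδ hb hr hn hp hCK hch
  · left
    obtain ⟨u, hu⟩ := Finset.card_pos.1 h0
    obtain ⟨v, hvu, he⟩ := leaf_edge hlK (Finset.mem_filter.1 hu).2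
    refine ⟨C, hmem, hCK, ?_⟩
    have := one_leaf_bound hg hδ (η := (1 / 64) ^ C.card) (by positivity) hb hr hn hp hCK hch hvu he
    rw [hBc]
    rwa [show C.card - 2 = n - 1 by omega]

lemma Xi_sandwich {δ : ℝ} (hb : ∀ a b, |g a b| ≤ δ) (hδ1 : δ ≤ 1) {S T : Finset (Sym2 V)}
    (h : T ⊆ S) :
    Xi g S ≤ (1 + δ) ^ (S \ T).card * Xi g T ∧ (1 - δ) ^ (S \ T).card * Xi g T ≤ Xi g S := by
  have h0 : ∀ (x : V → X) (e : Sym2 V), 1 - δ ≤ 1 + ew g x e ∧ 1 + ew g x e ≤ 1 + δ :=
    fun x e => by have := abs_le.1 (hb (x e.out.1) (x e.out.2)); simp only [ew]; constructor <;> linarith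
  have hT : ∀ x : V → X, 0 ≤ ∏ e ∈ T, (1 + ew g x e) := fun x =>
    Finset.prod_nonneg fun e _ => by linarith [(h0 x e).1]
  constructor
  · rw [Xi, Xi, ← avg_mul_left]
    refine avg_mono fun x => ?_
    rw [← Finset.prod_sdiff h, ← Finset.prod_const]
    exact mul_le_mul_of_nonneg_right (Finset.prod_le_prod
      (fun e _ => by linarith [(h0 x e).1]) fun e _ => (h0 x e).2) (hT x)
  · rw [Xi, Xi, ← avg_mul_left]
    refine avg_mono fun x => ?_
    rw [← Finset.prod_sdiff h, ← Finset.prod_const]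
    exact mul_le_mul_of_nonneg_right (Finset.prod_le_prod
      (fun e _ => by linarith) fun e _ => (h0 x e).1) (hT x)

omit [DecidableEq X] in
lemma Xi_nonneg {δ : ℝ} (hb : ∀ a b, |g a b| ≤ δ) (hδ1 : δ ≤ 1) (S : Finset (Sym2 V)) :
    0 ≤ Xi g S :=
  div_nonneg (Finset.sum_nonneg fun x _ => Finset.prod_nonneg fun e _ => by
    have := abs_le.1 (hb (x e.out.1) (x e.out.2)); simp only [ew]; linarith) (Nat.cast_nonneg _)

lemma card_cl_le {E : Finset (Sym2 V)} {Δ : ℕ} (hdeg : ∀ v, deg E v ≤ Δ) (K : Finset (Sym2 V)) :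
    (cl E K).card ≤ K.card * (2 * Δ) := by
  refine le_trans (Finset.card_le_card (t := (verts K).biUnion fun v => E.filter (v ∈ ·)) ?_) ?_
  · intro b hb
    obtain ⟨hbE, a, ha, w, hwa, hwb⟩ := Finset.mem_filter.1 hb
    exact Finset.mem_biUnion.2 ⟨w, mem_verts.2 ⟨a, ha, hwa⟩, Finset.mem_filter.2 ⟨hbE, hwb⟩⟩
  · refine Finset.card_biUnion_le.trans ((Finset.sum_le_card_nsmul _ _ Δ fun v _ => hdeg v).trans ?_)
    rw [smul_eq_mul]
    calc (verts K).card * Δ ≤ 2 * K.card * Δ := Nat.mul_le_mul_right _ (card_verts_le K)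
      _ = _ := by ring

omit [Fintype X] [DecidableEq X] [Nonempty X] in
/-- Sum over the extensions of a fixed edge set. -/
lemma sum_ext_le {E : Finset (Sym2 V)} {Δ : ℕ} (hdeg : ∀ v, deg E v ≤ Δ) {y ρ : ℝ} (hy : 0 ≤ y)
    (hρ : 4 * Δ * y ≤ ρ) (hρ1 : ρ ≤ 1) {C : Finset (Sym2 V)} (hC : C.Nonempty) (j₀ : ℕ)
    (S : Finset (Finset (Sym2 V))) (hS : ∀ K ∈ S, K ⊆ E ∧ Conn K ∧ C ⊆ K ∧ j₀ ≤ (K \ C).card) :
    ∑ K ∈ S, y ^ (K \ C).card ≤ ρ ^ j₀ * 4 ^ C.card := by
  have hρ0 : 0 ≤ ρ := le_trans (by positivity) hρ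
  refine le_trans (le_of_eq_of_le (Finset.sum_image (f := fun J : Finset (Sym2 V) => y ^ J.card)
    (g := fun K => K \ C) ?_).symm ?_) ?_ (b := ρ ^ j₀ * 2 ^ (verts C).card)
  · intro K hK K' hK' h
    simp only at h
    rw [← Finset.sdiff_union_of_subset (hS K hK).2.2.1, h,
      Finset.sdiff_union_of_subset (hS K' hK').2.2.1]
  · refine le_trans (Finset.sum_le_sum_of_subset_of_nonneg ?_ fun _ _ _ => pow_nonneg hy _)
      (rooted_sum_pow_le hy hρ hρ1 E (verts C) hdeg)
    intro J hJ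
    obtain ⟨K, hK, rfl⟩ := Finset.mem_image.1 hJ
    obtain ⟨h1, h2, h3, h4⟩ := hS K hK
    simp only [Finset.mem_filter, Finset.mem_powerset]
    exact ⟨⟨Finset.sdiff_subset.trans h1, rooted_sdiff h2 h3 hC⟩, h4⟩
  · refine mul_le_mul_of_nonneg_left ?_ (pow_nonneg hρ0 _)
    rw [show (4 : ℝ) = 2 ^ 2 by norm_num, ← pow_mul]
    exact pow_le_pow_right₀ one_le_two (card_verts_le C)

/-- The first variation is nonnegative. -/
theorem dsum_nonneg (hg : ∀ a b, g a b = g b a) {δ : ℝ} (hδ : 0 < δ)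
    (hb : ∀ a b, |g a b| ≤ δ) (hmean : avg (dg g) = 0)
    {E : Finset (Sym2 V)} (hl : Loopless E) (c : V → Bool)
    (hc : ∀ u v, s(u, v) ∈ E → c u ≠ c v) {Δ : ℕ} (hΔ : 1 ≤ Δ) (hdeg : ∀ v, deg E v ≤ Δ)
    (hsmall : δ * Δ ≤ 1 / 2 ^ 24) : 0 ≤ dsum g E := by
  have hΔ' : (1 : ℝ) ≤ Δ := by exact_mod_cast hΔ
  have hδs : δ ≤ 1 / 2 ^ 24 := le_trans (le_mul_of_one_le_right hδ.le hΔ') hsmall
  have hδ1 : δ ≤ 1 := le_trans hδs (by norm_num)
  set ρ : ℝ := 16 * δ * Δ with hρdef
  have hρ0 : 0 ≤ ρ := by positivity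
  have hρs : ρ ≤ 1 / 2 ^ 20 := by rw [hρdef]; norm_num at hsmall ⊢; linarith
  have hA : 0 ≤ Aq g :=
    div_nonneg (Finset.sum_nonneg fun _ _ => sq_nonneg _) (Nat.cast_nonneg _)
  have hX := Xi_nonneg (V := V) hb hδ1
  have hexp : (1 + 2 * δ) ^ (2 * Δ) ≤ 2 := by
    calc (1 + 2 * δ) ^ (2 * Δ) ≤ Real.exp (2 * δ) ^ (2 * Δ) :=
          pow_le_pow_left₀ (by positivity) (by rw [add_comm]; exact Real.add_one_le_exp _) _
      _ = Real.exp (4 * (δ * Δ)) := by rw [← Real.exp_nat_mul]; congr 1; push_cast; ring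
      _ ≤ Real.exp (1 / 2) := Real.exp_le_exp.2 (by norm_num at hsmall ⊢; linarith)
      _ ≤ 2 := by
          have h := Real.exp_bound' (x := 1 / 2) (by norm_num) (by norm_num) (n := 2) (by norm_num)
          norm_num [Finset.sum_range_succ, Nat.factorial] at h ⊢
          linarith
  have hcl : ∀ K, Xi g (E \ cl E K) ≤ 2 ^ K.card * Xi g E ∧
      Xi g E ≤ 2 ^ K.card * Xi g (E \ cl E K) := by
    intro K
    obtain ⟨h1, h2⟩ := Xi_sandwich (g := g) (T := E \ cl E K) (S := E) hb hδ1 Finset.sdiff_subset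
    set q := (E \ (E \ cl E K)).card
    have hq : q ≤ K.card * (2 * Δ) := le_trans (Finset.card_le_card (by intro; simp)) (card_cl_le hdeg K)
    have hpow : (1 + 2 * δ) ^ q ≤ 2 ^ K.card := by
      refine le_trans (pow_le_pow_right₀ (by linarith) hq) ?_
      rw [mul_comm K.card, pow_mul]
      exact pow_le_pow_left₀ (by positivity) hexp _
    refine ⟨?_, le_trans h1 (mul_le_mul_of_nonneg_right
      (le_trans (pow_le_pow_left₀ (by linarith) (by linarith) _) hpow) (hX _))⟩
    have hone : 1 ≤ (1 + 2 * δ) ^ q * (1 - δ) ^ q := by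
      rw [← mul_pow]
      refine one_le_pow₀ ?_
      norm_num at hδs
      nlinarith
    calc Xi g (E \ cl E K) ≤ ((1 + 2 * δ) ^ q * (1 - δ) ^ q) * Xi g (E \ cl E K) :=
          le_mul_of_one_le_left (hX _) hone
      _ ≤ (1 + 2 * δ) ^ q * Xi g E := by
          rw [mul_assoc]; exact mul_le_mul_of_nonneg_left h2 (by positivity)
      _ ≤ _ := mul_le_mul_of_nonneg_right hpow (hX _)
  have hB : ∀ C ∈ Cy E, 0 ≤ Bc g C ∧ tK g C = Bc g C ∧ ∃ r, 1 ≤ r ∧ C.card = 2 * (r + 1) := by
    intro C hC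
    simp only [Cy, connSets, Finset.mem_filter, Finset.mem_powerset] at hC
    obtain ⟨⟨hCE, -⟩, n, p, hn, hp, rfl⟩ := hC
    obtain ⟨r, hr⟩ := cyc_even c hc hCE
    have hcard := card_cyc hn hp
    have e : Bc g (Finset.univ.image (cedge p)) = Bq g n := by rw [Bc, hcard]; rfl
    exact ⟨e ▸ Bq_nonneg hg hr, e ▸ tK_cyc hg hn hp, r, by omega, by omega⟩
  have hCh : ∀ C ∈ Ch E, tK g C = Aq g ∧ C.card = 2 := by
    intro C hC
    simp only [Ch, connSets, Finset.mem_filter, Finset.mem_powerset] at hC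
    obtain ⟨⟨hCE, hCc⟩, hcard⟩ := hC
    obtain ⟨a, ha⟩ := hCc.1
    obtain ⟨d, hd, hne, v, hva, hvd⟩ := exists_cherry_sub hCc (by omega) ha
    have hCeq : ({a, d} : Finset (Sym2 V)) = C := Finset.eq_of_subset_of_card_le
      (by simp [Finset.insert_subset_iff, ha, hd]) (by rw [hcard, Finset.card_pair hne.symm])
    obtain ⟨u, rfl⟩ := hva
    obtain ⟨u', rfl⟩ := hvd
    refine ⟨?_, hcard⟩
    rw [← hCeq, Sym2.eq_swap (a := v) (b := u), Sym2.eq_swap (a := v) (b := u')]
    have h1 : v ≠ u := fun h => hl _ (hCE ha) (Sym2.mk_isDiag_iff.2 h)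
    have h2 : v ≠ u' := fun h => hl _ (hCE hd) (Sym2.mk_isDiag_iff.2 h)
    exact tK_cherry hg h1 h2 fun h => hne (by rw [h])
  -- bounds on the error
  let S2 : ℝ := (Ch E).card * Aq g
  let S3 : ℝ := ∑ C ∈ Cy E, (1 / 2) ^ C.card * Bc g C
  have herr : ∑ K ∈ Er E, 4 ^ K.card * |tK g K| ≤ S2 / 2 + S3 := by
    let φ1 : Finset (Sym2 V) → Finset (Sym2 V) → ℝ := fun C K =>
      if C ⊆ K then 16 * Aq g * (4 * δ) ^ (K \ C).card else 0
    let w : Finset (Sym2 V) → ℝ := fun C =>
      (1 / 64) ^ C.card * Bc g C + δ ^ (C.card - 2) * Aq g / (1 / 64) ^ C.card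
    let φ2 : Finset (Sym2 V) → Finset (Sym2 V) → ℝ := fun C K =>
      if C ⊆ K then 4 ^ C.card * w C * (4 * δ) ^ (K \ C).card else 0
    let φ3 : Finset (Sym2 V) → Finset (Sym2 V) → ℝ := fun C K =>
      if C ⊆ K ∧ C.card ≤ 2 * (K \ C).card then
        4 ^ C.card * Bc g C * (4 * δ) ^ (K \ C).card else 0
    have hw : ∀ C ∈ Cy E, 0 ≤ w C := fun C hC => by
      have := (hB C hC).1; positivity
    have n1 : ∀ C K, 0 ≤ φ1 C K := fun C K => by
      simp only [φ1]; split_ifs <;> positivity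
    have n2 : ∀ C ∈ Cy E, ∀ K, 0 ≤ φ2 C K := fun C hC K => by
      have := hw C hC
      simp only [φ2]; split_ifs <;> positivity
    have n3 : ∀ C ∈ Cy E, ∀ K, 0 ≤ φ3 C K := fun C hC K => by
      have := (hB C hC).1
      simp only [φ3]; split_ifs <;> positivity
    have hpt : ∀ K ∈ Er E, 4 ^ K.card * |tK g K| ≤
        ∑ C ∈ Ch E, φ1 C K + (∑ C ∈ Cy E, φ2 C K + ∑ C ∈ Cy E, φ3 C K) := by
      intro K hK
      have s1 : 0 ≤ ∑ C ∈ Ch E, φ1 C K := Finset.sum_nonneg fun C _ => n1 C K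
      have s2 : 0 ≤ ∑ C ∈ Cy E, φ2 C K := Finset.sum_nonneg fun C hC => n2 C hC K
      have s3 : 0 ≤ ∑ C ∈ Cy E, φ3 C K := Finset.sum_nonneg fun C hC => n3 C hC K
      have split : ∀ C, C ⊆ K → (4 : ℝ) ^ K.card = 4 ^ C.card * 4 ^ (K \ C).card := fun C h => by
        rw [← pow_add]; congr 1
        rw [add_comm, Finset.card_sdiff_add_card_eq_card h]
      rcases classify hg hδ hb hl c hc hK with ⟨C, hC, hs, ht⟩ | ⟨C, hC, hs, ht⟩ |
          ⟨C, hC, hs, hj, ht⟩
      · refine le_trans ?_ (le_add_of_nonneg_right (add_nonneg s2 s3))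
        refine le_trans ?_ (Finset.single_le_sum (fun C _ => n1 C K) hC)
        simp only [φ1, if_pos hs]
        refine le_trans (mul_le_mul_of_nonneg_left ht (by positivity)) (le_of_eq ?_)
        rw [split C hs, (hCh C hC).2, mul_pow]; ring
      · refine le_trans ?_ (le_add_of_nonneg_left s1)
        refine le_trans ?_ (le_add_of_nonneg_right s3)
        refine le_trans ?_ (Finset.single_le_sum (fun C hC => n2 C hC K) hC)
        simp only [φ2, if_pos hs]
        refine le_trans (mul_le_mul_of_nonneg_left ht (by positivity)) (le_of_eq ?_)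
        rw [split C hs, mul_pow]; simp only [w]; ring
      · refine le_trans ?_ (le_add_of_nonneg_left s1)
        refine le_trans ?_ (le_add_of_nonneg_left s2)
        refine le_trans ?_ (Finset.single_le_sum (fun C hC => n3 C hC K) hC)
        simp only [φ3, if_pos (And.intro hs hj)]
        refine le_trans (mul_le_mul_of_nonneg_left ht (by positivity)) (le_of_eq ?_)
        rw [split C hs, mul_pow]; ring
    refine le_trans (Finset.sum_le_sum hpt) ?_
    rw [Finset.sum_add_distrib, Finset.sum_add_distrib, Finset.sum_comm (s := Er E),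
      Finset.sum_comm (s := Er E), Finset.sum_comm (s := Er E)]
    have hy : (0 : ℝ) ≤ 4 * δ := by positivity
    have hρy : 4 * Δ * (4 * δ) ≤ ρ := le_of_eq (by rw [hρdef]; ring)
    have hρ1 : ρ ≤ 1 := le_trans hρs (by norm_num)
    have hEr : ∀ K ∈ Er E, K ⊆ E ∧ Conn K := fun K hK => by
      simp only [Er, connSets, Finset.mem_filter, Finset.mem_powerset] at hK
      exact hK.1
    have hproper : ∀ C K, K ∈ Er E → (C ∈ Ch E ∨ C ∈ Cy E) → C ⊆ K → 1 ≤ (K \ C).card := by
      intro C K hK hC hs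
      refine Finset.card_pos.2 (Finset.sdiff_nonempty.2 fun h => ?_)
      have he := Finset.Subset.antisymm hs h
      simp only [Er, Ch, Cy, Finset.mem_filter] at hK hC
      rcases hC with hC | hC
      · have := he ▸ hC.2; omega
      · exact hK.2.2 (he ▸ hC.2)
    have hne : ∀ C, (C ∈ Ch E ∨ C ∈ Cy E) → C.Nonempty := by
      rintro C (hC | hC) <;>
        (simp only [Ch, Cy, connSets, Finset.mem_filter] at hC; exact hC.1.2.1)
    have b1 : ∑ C ∈ Ch E, ∑ K ∈ Er E, φ1 C K ≤ (256 * ρ) * S2 := by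
      refine le_trans (Finset.sum_le_card_nsmul _ _ (256 * ρ * Aq g) fun C hC => ?_)
        (le_of_eq (by rw [nsmul_eq_mul]; simp only [S2]; ring))
      simp only [φ1, ← Finset.sum_filter, ← Finset.mul_sum]
      have := sum_ext_le hdeg hy hρy hρ1 (hne C (Or.inl hC)) 1 ((Er E).filter (C ⊆ ·))
        fun K hK => by
          obtain ⟨h1, h2⟩ := Finset.mem_filter.1 hK
          exact ⟨(hEr K h1).1, (hEr K h1).2, h2, hproper C K h1 (Or.inl hC) h2⟩
      rw [(hCh C hC).2] at this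
      calc 16 * Aq g * ∑ K ∈ Er E with C ⊆ K, (4 * δ) ^ (K \ C).card
          ≤ 16 * Aq g * (ρ ^ 1 * 4 ^ 2) := mul_le_mul_of_nonneg_left this (by positivity)
        _ = _ := by ring
    have b3 : ∑ C ∈ Cy E, ∑ K ∈ Er E, φ3 C K ≤ S3 / 2 := by
      simp only [S3, Finset.sum_div]
      refine Finset.sum_le_sum fun C hC => ?_
      obtain ⟨hB0, -, r, hr, hcard⟩ := hB C hC
      simp only [φ3, ← Finset.sum_filter, ← Finset.mul_sum]
      have := sum_ext_le hdeg hy hρy hρ1 (hne C (Or.inr hC)) (r + 1)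
        ((Er E).filter fun K => C ⊆ K ∧ C.card ≤ 2 * (K \ C).card) fun K hK => by
          obtain ⟨h1, h2, h3⟩ := Finset.mem_filter.1 hK
          exact ⟨(hEr K h1).1, (hEr K h1).2, h2, by omega⟩
      refine le_trans (mul_le_mul_of_nonneg_left this (by positivity)) ?_
      have hk : (1024 * ρ) ^ (r + 1) ≤ 1 / 2 := by
        refine le_trans (pow_le_of_le_one (by positivity) ?_ (by omega)) ?_ <;>
          (norm_num at hρs ⊢; linarith)
      calc 4 ^ C.card * Bc g C * (ρ ^ (r + 1) * 4 ^ C.card)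
          = (1024 * ρ) ^ (r + 1) * ((1 / 2) ^ C.card * Bc g C) := by
            have e : ((4 : ℝ) ^ 2) ^ (r + 1) * ((4 : ℝ) ^ 2) ^ (r + 1)
                = (1024 : ℝ) ^ (r + 1) * (((1 : ℝ) / 2) ^ 2) ^ (r + 1) := by
              rw [← mul_pow ((4 : ℝ) ^ 2), ← mul_pow (1024 : ℝ)]; norm_num
            rw [hcard, mul_pow (1024 : ℝ), pow_mul, pow_mul]
            linear_combination (ρ ^ (r + 1) * Bc g C) * e
        _ ≤ 1 / 2 * ((1 / 2) ^ C.card * Bc g C) :=
            mul_le_mul_of_nonneg_right hk (by positivity)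
        _ = _ := by ring
    have b2 : ∑ C ∈ Cy E, ∑ K ∈ Er E, φ2 C K ≤ S3 / 2 + (2 ^ 32 * ρ ^ 2) * S2 := by
      have step : ∀ C ∈ Cy E, ∑ K ∈ Er E, φ2 C K ≤ (1 / 2) ^ C.card * Bc g C / 2
          + 2 ^ 20 * ρ * Aq g * (1024 * δ) ^ (C.card - 2) := by
        intro C hC
        obtain ⟨hB0, -, r, hr, hcard⟩ := hB C hC
        simp only [φ2, ← Finset.sum_filter, ← Finset.mul_sum]
        have := sum_ext_le hdeg hy hρy hρ1 (hne C (Or.inr hC)) 1 ((Er E).filter (C ⊆ ·))
          fun K hK => by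
            obtain ⟨h1, h2⟩ := Finset.mem_filter.1 hK
            exact ⟨(hEr K h1).1, (hEr K h1).2, h2, hproper C K h1 (Or.inr hC) h2⟩
        refine le_trans (mul_le_mul_of_nonneg_left this
          (mul_nonneg (by positivity) (hw C hC))) ?_
        rw [pow_one]
        simp only [w]
        set L := C.card
        have e0 : (4 : ℝ) ^ L * (1 / 64) ^ L * 4 ^ L = (1 / 4) ^ L := by
          rw [← mul_pow, ← mul_pow]; norm_num
        have e1 : (4 : ℝ) ^ L * (δ ^ (L - 2) * Aq g / (1 / 64) ^ L) * (ρ * 4 ^ L)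
            = 2 ^ 20 * ρ * Aq g * (1024 * δ) ^ (L - 2) := by
          have : (4 : ℝ) ^ L * 4 ^ L / (1 / 64) ^ L = 1024 ^ (L - 2) * 2 ^ 20 := by
            rw [← mul_pow, ← div_pow, show ((2 : ℝ)) ^ 20 = 1024 ^ 2 by norm_num, ← pow_add,
              Nat.sub_add_cancel (by omega)]
            norm_num
          calc (4 : ℝ) ^ L * (δ ^ (L - 2) * Aq g / (1 / 64) ^ L) * (ρ * 4 ^ L)
              = ((4 : ℝ) ^ L * 4 ^ L / (1 / 64) ^ L) * (δ ^ (L - 2) * Aq g * ρ) := by ring
            _ = _ := by rw [this, mul_pow]; ring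
        have h5 : ρ * (1 / 4 : ℝ) ^ L ≤ (1 / 2) ^ L / 2 := by
          rw [div_eq_mul_one_div ((1 / 2 : ℝ) ^ L), mul_comm ((1 / 2 : ℝ) ^ L)]
          exact mul_le_mul (le_trans hρs (by norm_num))
            (pow_le_pow_left₀ (by norm_num) (by norm_num) _) (by positivity) (by norm_num)
        calc (4 : ℝ) ^ L * ((1 / 64) ^ L * Bc g C + δ ^ (L - 2) * Aq g / (1 / 64) ^ L)
              * (ρ * 4 ^ L)
            = (ρ * (1 / 4) ^ L) * Bc g C + 2 ^ 20 * ρ * Aq g * (1024 * δ) ^ (L - 2) := by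
              rw [← e0, ← e1]; ring
          _ ≤ _ := by
              refine add_le_add_left ?_ _
              calc _ ≤ (1 / 2 : ℝ) ^ L / 2 * Bc g C := mul_le_mul_of_nonneg_right h5 hB0
                _ = _ := by ring
      refine le_trans (Finset.sum_le_sum step) ?_
      rw [Finset.sum_add_distrib, ← Finset.mul_sum, ← Finset.sum_div]
      refine add_le_add_right ?_ _
      have key : ∑ C ∈ Cy E, (1024 * δ) ^ (C.card - 2) ≤ (Ch E).card * (4096 * ρ) := by
        calc ∑ C ∈ Cy E, (1024 * δ) ^ (C.card - 2)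
            ≤ ∑ C ∈ Cy E, ∑ D ∈ Ch E, if D ⊆ C then (1024 * δ) ^ (C \ D).card else 0 := by
              refine Finset.sum_le_sum fun C hC => ?_
              simp only [Cy, connSets, Finset.mem_filter, Finset.mem_powerset] at hC
              have h3 := hC.2.three_le
              obtain ⟨a, ha⟩ := hC.1.2.1
              obtain ⟨d, hd, hne', hm⟩ := exists_cherry_sub hC.1.2 (by omega) ha
              have hs : ({a, d} : Finset (Sym2 V)) ⊆ C := by
                simp [Finset.insert_subset_iff, ha, hd]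
              have hm' : ({a, d} : Finset (Sym2 V)) ∈ Ch E := by
                simp only [Ch, connSets, Finset.mem_filter, Finset.mem_powerset]
                exact ⟨⟨hs.trans hC.1.1, conn_pair hm⟩, Finset.card_pair hne'.symm⟩
              refine le_trans (le_of_eq ?_) (Finset.single_le_sum
                (fun D _ => by split_ifs <;> positivity) hm')
              rw [if_pos hs, Finset.card_sdiff_of_subset hs, Finset.card_pair hne'.symm]
          _ ≤ _ := by
              rw [Finset.sum_comm, ← nsmul_eq_mul]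
              refine Finset.sum_le_card_nsmul _ _ _ fun D hD => ?_
              rw [← Finset.sum_filter]
              refine le_trans (sum_ext_le (ρ := 256 * ρ) hdeg (by positivity)
                (le_of_eq (by rw [hρdef]; ring)) (by norm_num at hρs ⊢; linarith)
                (hne D (Or.inl hD)) 1 ((Cy E).filter (D ⊆ ·)) fun K hK => ?_) ?_
              · obtain ⟨h1, h2⟩ := Finset.mem_filter.1 hK
                simp only [Cy, connSets, Finset.mem_filter, Finset.mem_powerset] at h1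
                refine ⟨h1.1.1, h1.1.2, h2, ?_⟩
                rw [Finset.card_sdiff_of_subset h2, (hCh D hD).2]
                have := h1.2.three_le
                omega
              · rw [(hCh D hD).2, pow_one]; linarith
      calc 2 ^ 20 * ρ * Aq g * ∑ C ∈ Cy E, (1024 * δ) ^ (C.card - 2)
          ≤ 2 ^ 20 * ρ * Aq g * ((Ch E).card * (4096 * ρ)) :=
            mul_le_mul_of_nonneg_left key (by positivity)
        _ = _ := by simp only [S2]; ring
    have hS2 : 0 ≤ S2 := by positivity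
    have k1 : 256 * ρ * S2 ≤ S2 / 4 := by
      rw [div_eq_mul_one_div, mul_comm S2]
      exact mul_le_mul_of_nonneg_right (by norm_num at hρs ⊢; linarith) hS2
    have k2 : 2 ^ 32 * ρ ^ 2 * S2 ≤ S2 / 4 := by
      rw [div_eq_mul_one_div, mul_comm S2]
      refine mul_le_mul_of_nonneg_right ?_ hS2
      have := pow_le_pow_left₀ hρ0 hρs 2
      norm_num at this ⊢
      linarith
    linarith
  -- assemble
  rw [dsum_eq]
  have hterm : ∀ K ∈ connSets E,
      Xi g E * ((if K.card = 2 then Aq g / 2 else 0) + (if IsCyc K then (1 / 2) ^ K.card * Bc g K else 0)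
        - (if 3 ≤ K.card ∧ ¬IsCyc K then 4 ^ K.card * |tK g K| else 0))
      ≤ (K.card : ℝ) * (tK g K * Xi g (E \ cl E K)) := by
    intro K hK
    obtain ⟨hup, hlow⟩ := hcl K
    have hk0 : 1 ≤ K.card := (Finset.mem_filter.1 hK).2.1.card_pos
    by_cases hc2 : K.card = 2
    · have hn : ¬IsCyc K := fun h => by have := h.three_le; omega
      rw [if_pos hc2, if_neg hn, if_neg (by omega : ¬(3 ≤ K.card ∧ ¬IsCyc K))]
      rw [(hCh K (Finset.mem_filter.2 ⟨hK, hc2⟩)).1, hc2]
      rw [hc2] at hlow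
      have := mul_le_mul_of_nonneg_left hlow hA
      push_cast
      nlinarith
    by_cases hcy : IsCyc K
    · rw [if_neg hc2, if_pos hcy, if_neg (fun h => h.2 hcy)]
      obtain ⟨hB0, htK, -⟩ := hB K (Finset.mem_filter.2 ⟨hK, hcy⟩)
      rw [htK, zero_add, sub_zero]
      calc Xi g E * ((1 / 2) ^ K.card * Bc g K)
          ≤ 2 ^ K.card * Xi g (E \ cl E K) * ((1 / 2) ^ K.card * Bc g K) :=
            mul_le_mul_of_nonneg_right hlow (by positivity)
        _ = Bc g K * Xi g (E \ cl E K) := by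
            rw [one_div, inv_pow]; field_simp
        _ ≤ _ := le_mul_of_one_le_left (mul_nonneg hB0 (hX _)) (by exact_mod_cast hk0)
    rw [if_neg hc2, if_neg hcy]
    by_cases h3 : 3 ≤ K.card
    · rw [if_pos ⟨h3, hcy⟩, zero_add, zero_sub, mul_neg]
      refine le_trans (neg_le_neg ?_) (neg_abs_le _)
      rw [abs_mul, abs_mul, Nat.abs_cast, abs_of_nonneg (hX _)]
      calc (K.card : ℝ) * (|tK g K| * Xi g (E \ cl E K))
          ≤ 2 ^ K.card * (|tK g K| * (2 ^ K.card * Xi g E)) := by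
            refine mul_le_mul (by exact_mod_cast Nat.lt_two_pow_self.le)
              (mul_le_mul_of_nonneg_left hup (abs_nonneg _))
              (mul_nonneg (abs_nonneg _) (hX _)) (by positivity)
        _ = _ := by rw [show (4 : ℝ) = 2 * 2 by norm_num, mul_pow]; ring
    · rw [if_neg (by omega : ¬(3 ≤ K.card ∧ ¬IsCyc K))]
      obtain ⟨e, rfl⟩ := Finset.card_eq_one.1 (show K.card = 1 by omega)
      obtain ⟨hKE, -⟩ := Finset.mem_filter.1 hK
      rw [Finset.mem_powerset, Finset.singleton_subset_iff] at hKE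
      have hz : tK g ({e} : Finset (Sym2 V)) = 0 := by
        induction e using Sym2.ind with
        | _ u v =>
          simp only [tK, Finset.prod_singleton, ew_mk hg]
          have hne : v ≠ u := fun h => hl _ hKE (Sym2.mk_isDiag_iff.2 h.symm)
          have := avg_leaf hg hne (fun _ : V → X => (1 : ℝ)) (fun _ _ => rfl)
          simp only [mul_one] at this
          rw [this, avg_eval v (dg g), hmean]
      simp [hz]
  refine le_trans ?_ (Finset.sum_le_sum hterm)
  rw [← Finset.mul_sum]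
  refine mul_nonneg (hX _) ?_
  rw [Finset.sum_sub_distrib, Finset.sum_add_distrib, ← Finset.sum_filter, ← Finset.sum_filter,
    ← Finset.sum_filter, Finset.sum_const, nsmul_eq_mul]
  have : ((Ch E).card : ℝ) * (Aq g / 2) = S2 / 2 := by simp only [S2]; ring
  simp only [Ch, Cy, Er, S2, S3] at this herr ⊢
  linarith

end

end Vale.Agent.P050.Local
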