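import Vale.Agent.P050.Local.Finite

/-!
P050, local form: from finite uniform spaces to arbitrary probability spaces by sampling.
-/

namespace Vale.Agent.P050.Local

open Finset Function MeasureTheory

noncomputable section

attribute [local instance 10] Classical.propDecidable

variable {Ω : Type*} [MeasurableSpace Ω] (μ : Measure Ω) [IsProbabilityMeasure μ]

/-- Restricting to an injective family of coordinates. -/
lemma measurePreserving_comp {ι κ : Type*} [Fintype ι] [Fintype κ] (φ : ι → κ)
    (hφ : Injective φ) :
    MeasurePreserving (fun y : κ → Ω => y ∘ φ) (Measure.pi fun _ => μ) (Measure.pi fun _ => μ) := by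
  have hm : Measurable fun y : κ → Ω => y ∘ φ :=
    measurable_pi_lambda _ fun i => measurable_pi_apply _
  refine ⟨hm, (Measure.pi_eq fun s hs => ?_).symm⟩
  rw [Measure.map_apply hm (MeasurableSet.univ_pi hs)]
  have e : (fun y : κ → Ω => y ∘ φ) ⁻¹' (Set.univ.pi s)
      = Set.univ.pi (extend φ s fun _ => Set.univ) := by
    ext y
    simp only [Set.mem_preimage, Set.mem_univ_pi, Function.comp]
    constructor
    · intro h k
      by_cases hk : ∃ i, φ i = k
      · obtain ⟨i, rfl⟩ := hk
        rw [hφ.extend_apply]; exact h i
      · rw [extend_apply' _ _ _ hk]; trivial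
    · intro h i
      have := h (φ i)
      rwa [hφ.extend_apply] at this
  rw [e, Measure.pi_pi]
  rw [← Finset.prod_subset (Finset.subset_univ (Finset.univ.image φ)) fun k _ hk => by
      rw [extend_apply' _ _ _ (fun ⟨i, hi⟩ => hk (Finset.mem_image.2 ⟨i, Finset.mem_univ _, hi⟩)),
        measure_univ],
    Finset.prod_image fun a _ b _ h => hφ h]
  simp only [hφ.extend_apply]

variable {V : Type*} [Fintype V] [DecidableEq V]

/-- The sampled matrix. -/
def sample (W : Ω → Ω → ℝ) {N : ℕ} (y : Fin N → Ω) (a b : Fin N) : ℝ :=
  if a = b then 1 else W (y a) (y b)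

lemma integral_pair {N : ℕ} {a b : Fin N} (hab : a ≠ b) {W : Ω → Ω → ℝ}
    (hW : Measurable (uncurry W)) :
    ∫ y, W (y a) (y b) ∂(Measure.pi fun _ : Fin N => μ) = ∫ q, W q.1 q.2 ∂(μ.prod μ) := by
  have hφ : Injective ![a, b] := by
    intro i j h
    fin_cases i <;> fin_cases j <;> simp_all
  have h1 := (measurePreserving_finTwoArrow μ).comp (measurePreserving_comp μ ![a, b] hφ)
  rw [← h1.map_eq, integral_map h1.measurable.aemeasurable]
  · simp [MeasurableEquiv.finTwoArrow]
  · exact hW.aestronglyMeasurable

/-- The local inequality on a probability space, with everywhere bounds. -/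
theorem one_le_integral {W : Ω → Ω → ℝ} (hW : Measurable (uncurry W))
    (hs : ∀ x y, W x y = W y x) {δ : ℝ} (hδ : 0 < δ) (hb : ∀ x y, |W x y - 1| ≤ δ)
    (hmean : ∫ q, W q.1 q.2 ∂(μ.prod μ) = 1)
    {E : Finset (Sym2 V)} (hl : Loopless E) (c : V → Bool)
    (hc : ∀ u v, s(u, v) ∈ E → c u ≠ c v) {Δ : ℕ} (hΔ : 1 ≤ Δ) (hdeg : ∀ v, deg E v ≤ Δ)
    (hsmall : δ * Δ ≤ 1 / 2 ^ 26) :
    1 ≤ ∫ x, ∏ e ∈ E, W (x e.out.1) (x e.out.2) ∂(Measure.pi fun _ : V => μ) := by
  have hΔ' : (1 : ℝ) ≤ Δ := by exact_mod_cast hΔ
  have hδ2 : δ ≤ 1 / 2 ^ 26 := le_trans (le_mul_of_one_le_right hδ.le hΔ') hsmall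
  norm_num at hδ2
  set T : ℝ := ∫ x, ∏ e ∈ E, W (x e.out.1) (x e.out.2) ∂(Measure.pi fun _ : V => μ) with hT
  have hne : ∀ e ∈ E, e.out.1 ≠ e.out.2 := fun e he h => hl e he <| by
    rw [← Quot.out_eq e]; exact Sym2.mk_isDiag_iff.2 h
  have hT0 : 0 ≤ T := integral_nonneg fun x => Finset.prod_nonneg fun e _ => by
    have := abs_le.1 (hb (x e.out.1) (x e.out.2)); linarith
  -- every sample size gives an inequality
  have key : ∀ N : ℕ, 1 ≤ N →
      1 ≤ T + (1 + δ) ^ E.card * (Fintype.card V) ^ 2 / N := by
    intro N hN
    have : Nonempty (Fin N) := ⟨⟨0, hN⟩⟩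
    set P := (Measure.pi fun _ : Fin N => μ)
    have hM : ∀ (y : Fin N → Ω) a b, |sample W y a b - 1| ≤ δ := fun y a b => by
      unfold sample; split_ifs
      · simp [hδ.le]
      · exact hb _ _
    have hMm : ∀ a b : Fin N, Measurable fun y : Fin N → Ω => sample W y a b := fun a b => by
      unfold sample; split_ifs
      · exact measurable_const
      · exact (hW.comp ((measurable_pi_apply (X := fun _ : Fin N => Ω) a).prodMk (measurable_pi_apply b)) :)
    let p : (Fin N → Ω) → ℝ := fun y => avg fun a => avg fun b => sample W y a b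
    let G : (Fin N → Ω) → (V → Fin N) → ℝ := fun y φ =>
      ∏ e ∈ E, sample W y (φ e.out.1) (φ e.out.2)
    have hG : ∀ y φ, 0 ≤ G y φ ∧ G y φ ≤ (1 + δ) ^ E.card := fun y φ =>
      ⟨Finset.prod_nonneg fun e _ => by have := abs_le.1 (hM y (φ e.out.1) (φ e.out.2)); linarith,
        le_trans (Finset.prod_le_prod
          (fun e _ => by have := abs_le.1 (hM y (φ e.out.1) (φ e.out.2)); linarith)
          fun e _ => show sample W y (φ e.out.1) (φ e.out.2) ≤ 1 + δ by
            have := abs_le.1 (hM y (φ e.out.1) (φ e.out.2)); linarith) (by simp)⟩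
    have hGi : ∀ φ, Integrable (fun y => G y φ) P := fun φ =>
      Integrable.of_bound ((Finset.measurable_prod _ fun e _ => hMm _ _).aestronglyMeasurable)
        ((1 + δ) ^ E.card) (Filter.Eventually.of_forall fun y => by
          rw [Real.norm_eq_abs, abs_of_nonneg (hG y φ).1]; exact (hG y φ).2)
    have hMi : ∀ a b, Integrable (fun y => sample W y a b) P := fun a b =>
      Integrable.of_bound (hMm a b).aestronglyMeasurable (1 + δ)
        (Filter.Eventually.of_forall fun y => by
          have := abs_le.1 (hM y a b)
          rw [Real.norm_eq_abs, abs_le]; constructor <;> linarith)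
    have hp : ∀ y, |p y - 1| ≤ δ := by
      intro y
      have e : p y - 1 = avg fun a => avg fun b => sample W y a b - 1 := by
        simp only [p, sub_eq_add_neg, avg_add, avg_const]
      rw [e]
      refine le_trans (abs_avg_le _) (le_trans (avg_mono fun a => ?_) (le_of_eq (avg_const δ)))
      exact le_trans (abs_avg_le _) (le_trans (avg_mono fun b => hM y a b) (le_of_eq (avg_const δ)))
    have hpm : ∀ y, p y ^ E.card ≤ avg (G y) := by
      intro y
      have hp0 : 0 < p y := by have := abs_le.1 (hp y); linarith
      let g : Fin N → Fin N → ℝ := fun a b => sample W y a b / p y - 1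
      have hg : ∀ a b, g a b = g b a := fun a b => by
        simp only [g, sample]
        rcases eq_or_ne a b with rfl | h
        · rfl
        · rw [if_neg h, if_neg h.symm, hs]
      have hgb : ∀ a b, |g a b| ≤ 4 * δ := fun a b => by
        have h1 := abs_le.1 (hM y a b)
        have h2 := abs_le.1 (hp y)
        simp only [g]
        rw [div_sub_one hp0.ne', abs_div, abs_of_pos hp0, div_le_iff₀ hp0, abs_le]
        constructor <;> nlinarith
      have hgm : avg (dg g) = 0 := by
        have e : ∀ a, dg g a = (avg fun b => sample W y a b) * (1 / p y) + -1 := fun a => by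
          have e' : g a = fun b => sample W y a b * (1 / p y) + -1 := funext fun b => by
            simp only [g]; ring
          rw [dg, e', avg_add, avg_mul_right, avg_const]
        rw [show dg g = _ from funext e, avg_add, avg_const, avg_mul_right]
        change p y * (1 / p y) + -1 = 0
        field_simp
        ring
      have h := one_le_Xi hg (δ := 4 * δ) (by linarith) hgb hgm hl c hc hΔ hdeg
        (by norm_num at hsmall ⊢; nlinarith)
      have e : avg (G y) = p y ^ E.card * Xi g E := by
        rw [Xi, ← avg_mul_left]
        congr 1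
        funext φ
        rw [← Finset.prod_const, ← Finset.prod_mul_distrib]
        refine Finset.prod_congr rfl fun e _ => ?_
        simp only [ew, g]
        field_simp
        ring
      rw [e]
      exact le_mul_of_one_le_right (pow_nonneg hp0.le _) h
    have hpi : Integrable p P :=
      (integrable_finsetSum _ fun a _ =>
        (integrable_finsetSum _ fun b _ => hMi a b).div_const _).div_const _
    have hp1 : ∫ y, p y ∂P = 1 := by
      simp only [p, avg]
      rw [integral_div, integral_finsetSum _ fun a _ =>
        (integrable_finsetSum _ fun b _ => hMi a b).div_const _]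
      simp only [integral_div, integral_finsetSum _ fun b _ => hMi _ b]
      have hpair : ∀ a b : Fin N, ∫ y, sample W y a b ∂P = 1 := fun a b => by
        unfold sample
        split_ifs with h
        · simp [P]
        · exact (integral_pair μ h hW).trans hmean
      have hN' : (N : ℝ) ≠ 0 := by exact_mod_cast (by omega : N ≠ 0)
      simp [hpair, hN']
    have hlow : 1 ≤ ∫ y, avg (G y) ∂P := by
      have h1 : ∫ y, (1 + E.card * (p y - 1)) ∂P = 1 := by
        rw [integral_add (integrable_const _) ((hpi.sub' (integrable_const _)).const_mul _),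
          integral_const_mul, integral_sub hpi (integrable_const _), hp1]
        simp [P]
      rw [← h1]
      refine integral_mono ((integrable_const _).add ((hpi.sub (integrable_const _)).const_mul _))
        ((integrable_finsetSum _ fun φ _ => hGi φ).div_const _) fun y => ?_
      refine le_trans ?_ (hpm y)
      have := one_add_mul_sub_le_pow (a := p y) (by have := abs_le.1 (hp y); linarith) E.card
      linarith
    have hφ : ∀ φ : V → Fin N, ∫ y, G y φ ∂P ≤ T + (1 + δ) ^ E.card *
        ∑ u : V, ∑ v ∈ Finset.univ.erase u, (if φ u = φ v then (1 : ℝ) else 0) := by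
      intro φ
      have hpos : (0 : ℝ) ≤ (1 + δ) ^ E.card := by positivity
      have hnn : ∀ u : V, 0 ≤ ∑ v ∈ Finset.univ.erase u, (if φ u = φ v then (1 : ℝ) else 0) :=
        fun u => Finset.sum_nonneg fun v _ => by split_ifs <;> norm_num
      by_cases hi : Injective φ
      · refine le_add_of_le_of_nonneg (le_of_eq ?_)
          (mul_nonneg hpos (Finset.sum_nonneg fun u _ => hnn u))
        have h1 := measurePreserving_comp μ φ hi
        have hTm : Measurable fun x : V → Ω => ∏ e ∈ E, W (x e.out.1) (x e.out.2) :=
          Finset.measurable_prod _ fun e _ =>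
            (hW.comp ((measurable_pi_apply (X := fun _ : V => Ω) e.out.1).prodMk
              (measurable_pi_apply e.out.2)) :)
        rw [hT, ← h1.map_eq, integral_map h1.measurable.aemeasurable hTm.aestronglyMeasurable]
        refine integral_congr_ae (Filter.Eventually.of_forall fun y => Finset.prod_congr rfl ?_)
        intro e he
        simp [sample, Function.comp, if_neg (hi.ne (hne e he))]
      · rw [Injective] at hi
        push Not at hi
        obtain ⟨u, v, huv, hne'⟩ := hi
        refine le_add_of_nonneg_of_le hT0 (le_trans ?_ (le_mul_of_one_le_right hpos ?_))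
        · calc ∫ y, G y φ ∂P ≤ ∫ _y, (1 + δ) ^ E.card ∂P :=
                integral_mono (hGi φ) (integrable_const _) fun y => (hG y φ).2
            _ = _ := by simp [P]
        · refine le_trans ?_ (Finset.single_le_sum (fun w _ => hnn w) (Finset.mem_univ u))
          refine le_trans (le_of_eq (if_pos huv).symm) (Finset.single_le_sum
            (f := fun w => if φ u = φ w then (1 : ℝ) else 0)
            (fun w _ => by split_ifs <;> norm_num)
            (Finset.mem_erase.2 ⟨fun h => hne' h.symm, Finset.mem_univ v⟩))
    have hswap : ∫ y, avg (G y) ∂P = avg fun φ => ∫ y, G y φ ∂P := by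
      simp only [avg]
      rw [integral_div, integral_finsetSum _ fun φ _ => hGi φ]
    refine le_trans hlow (hswap ▸ le_trans (avg_mono hφ) ?_)
    rw [avg_add, avg_const, avg_mul_left, avg_sum, mul_div_assoc]
    refine add_le_add_right (mul_le_mul_of_nonneg_left ?_ (by positivity)) _
    calc ∑ u : V, avg (fun φ : V → Fin N =>
          ∑ v ∈ Finset.univ.erase u, (if φ u = φ v then (1 : ℝ) else 0))
        ≤ ∑ _u : V, (Fintype.card V : ℝ) * (1 / N) := by
          refine Finset.sum_le_sum fun u _ => ?_
          rw [avg_sum]
          refine le_trans (Finset.sum_le_card_nsmul _ _ (1 / (N : ℝ)) fun v hv => ?_) ?_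
          · rw [avg_update u]
            have hvu := (Finset.mem_erase.1 hv).1
            simp only [update_self, update_of_ne hvu]
            refine le_of_eq (Eq.trans ?_ (avg_const (α := V → Fin N) _))
            congr 1
            funext φ
            simp [avg]
          · rw [nsmul_eq_mul]
            exact mul_le_mul_of_nonneg_right
              (Nat.cast_le.2 (Finset.card_le_univ _)) (by positivity)
      _ = _ := by simp; ring
  refine le_of_forall_pos_le_add fun ε hε => ?_
  obtain ⟨N, hN⟩ := exists_nat_gt ((1 + δ) ^ E.card * (Fintype.card V : ℝ) ^ 2 / ε)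
  have h := key (N + 1) (by omega)
  have : (1 + δ) ^ E.card * (Fintype.card V : ℝ) ^ 2 / ((N + 1 : ℕ) : ℝ) ≤ ε := by
    rw [div_le_iff₀ (by positivity)]
    rw [div_lt_iff₀ hε] at hN
    push_cast
    nlinarith
  linarith

end

end Vale.Agent.P050.Local
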