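import Mathlib

/-!
P050, local form: closed walks in a symmetric matrix with multipliers of size at most one are
dominated by the trace of the power (reflection positivity on a cycle).
-/

namespace Vale.Agent.P050.Local

open Matrix Finset

noncomputable section

variable {X : Type*} [Fintype X] [DecidableEq X] (T : Matrix X X ℝ)

/-- The product of the steps `diagonal m * T`. -/
def word (ms : List (X → ℝ)) : Matrix X X ℝ := (ms.map fun m => diagonal m * T).prod

/-- The trace of a word. -/
def val (ms : List (X → ℝ)) : ℝ := trace (word T ms)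

@[simp] lemma word_nil : word T [] = 1 := rfl

@[simp] lemma word_cons (m : X → ℝ) (ms : List (X → ℝ)) :
    word T (m :: ms) = diagonal m * T * word T ms := by simp [word]

lemma word_append (l l' : List (X → ℝ)) : word T (l ++ l') = word T l * word T l' := by
  simp [word]

lemma val_append_comm (l l' : List (X → ℝ)) : val T (l ++ l') = val T (l' ++ l) := by
  rw [val, val, word_append, word_append, trace_mul_comm]

variable {T} (hT : Tᵀ = T)
include hT

lemma transpose_word_mul (ms : List (X → ℝ)) : (word T ms)ᵀ * T = T * word T ms.reverse := by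
  induction ms with
  | nil => simp
  | cons a t ih =>
    rw [word_cons, List.reverse_cons, word_append, transpose_mul, transpose_mul,
      diagonal_transpose, hT, ← Matrix.mul_assoc (word T t)ᵀ, ih, word_cons, word_nil]
    simp [Matrix.mul_assoc]

omit hT in
/-- The reflected list. -/
def sym : List (X → ℝ) → List (X → ℝ)
  | [] => []
  | a :: t => (a * a) :: t ++ 1 :: t.reverse

omit hT [Fintype X] [DecidableEq X] in
lemma length_sym {a : X → ℝ} {t : List (X → ℝ)} :
    (sym (a :: t)).length = 2 * (a :: t).length := by
  simp [sym]; omega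

lemma trace_mul_transpose_word (a : X → ℝ) (t : List (X → ℝ)) :
    trace (word T (a :: t) * (word T (a :: t))ᵀ) = val T (sym (a :: t)) := by
  rw [word_cons, transpose_mul, transpose_mul, diagonal_transpose, hT, val, sym,
    word_append, word_cons, word_cons, Matrix.diagonal_one', Matrix.one_mul]
  calc trace (diagonal a * T * word T t * ((word T t)ᵀ * (T * diagonal a)))
      = trace (diagonal a * T * word T t * ((word T t)ᵀ * T) * diagonal a) := by
        simp [Matrix.mul_assoc]
    _ = trace (diagonal a * (diagonal a * T * word T t * ((word T t)ᵀ * T))) := by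
        rw [trace_mul_comm]
    _ = _ := by
        rw [transpose_word_mul hT, show (a * a : X → ℝ) = fun i => a i * a i from rfl,
          ← diagonal_mul_diagonal]
        simp only [Matrix.one_mul, Matrix.mul_assoc]

omit hT [DecidableEq X] in
lemma sq_trace_mul_le (A B : Matrix X X ℝ) :
    (trace (A * B)) ^ 2 ≤ trace (A * Aᵀ) * trace (B * Bᵀ) := by
  have e1 : trace (A * B) = ∑ p : X × X, A p.1 p.2 * B p.2 p.1 := by
    simp [trace, mul_apply, Fintype.sum_prod_type]
  have e2 : trace (A * Aᵀ) = ∑ p : X × X, A p.1 p.2 ^ 2 := by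
    simp [trace, mul_apply, Fintype.sum_prod_type, sq]
  have e3 : trace (B * Bᵀ) = ∑ p : X × X, B p.2 p.1 ^ 2 := by
    simp only [trace, diag_apply, mul_apply, transpose_apply, Fintype.sum_prod_type, sq]
    exact Finset.sum_comm
  rw [e1, e2, e3]
  exact Finset.sum_mul_sq_le_sq_mul_sq _ _ _

omit hT [DecidableEq X] in
lemma trace_mul_transpose_nonneg (A : Matrix X X ℝ) : 0 ≤ trace (A * Aᵀ) := by
  simp only [trace, diag_apply, mul_apply, transpose_apply]
  exact Finset.sum_nonneg fun i _ => Finset.sum_nonneg fun j _ => mul_self_nonneg _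

omit hT in
lemma val_replicate_nonneg (hT : Tᵀ = T) (r : ℕ) :
    0 ≤ val T (List.replicate (2 * (r + 1)) 1) := by
  have h := trace_mul_transpose_word hT 1 (List.replicate r 1)
  have e : sym ((1 : X → ℝ) :: List.replicate r 1) = List.replicate (2 * (r + 1)) 1 := by
    simp only [sym, mul_one, List.reverse_replicate, ← List.replicate_succ,
      List.replicate_append_replicate]
    congr 1
    omega
  rw [← e, ← h]
  exact trace_mul_transpose_nonneg _

omit hT in
/-- Number of trivial multipliers. -/
def ones (ms : List (X → ℝ)) : ℕ := by classical exact ms.countP fun m => decide (m = 1)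

omit hT [DecidableEq X] in
lemma ones_le (ms : List (X → ℝ)) : ones ms ≤ ms.length := by
  classical
  unfold ones
  exact List.countP_le_length

omit hT [DecidableEq X] in
lemma two_mul_ones_lt {a b : X → ℝ} (s t : List (X → ℝ)) (ha : a ≠ 1) :
    2 * ones (a :: (s ++ b :: t)) < ones (sym (a :: s)) + ones (sym (b :: t)) := by
  classical
  unfold ones
  simp only [sym, List.countP_append, List.countP_cons, List.countP_reverse, decide_eq_true_eq,
    if_neg ha]
  by_cases h : b = 1
  · simp [h]; omega
  · simp [h]; split_ifs <;> omega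

/-- All entries have size at most one. -/
def Bdd (ms : List (X → ℝ)) : Prop := ∀ m ∈ ms, ∀ x, |m x| ≤ 1

omit hT [Fintype X] [DecidableEq X] in
lemma Bdd.sym {a : X → ℝ} {t : List (X → ℝ)} (h : Bdd (a :: t)) :
    Bdd (Local.sym (a :: t)) := by
  intro m hm x
  simp only [Local.sym, List.cons_append, List.mem_cons, List.mem_append, List.mem_reverse] at hm
  rcases hm with rfl | hm | rfl | hm
  · simp only [Pi.mul_apply, abs_mul]
    exact mul_le_one₀ (h a (by simp) x) (abs_nonneg _) (h a (by simp) x)
  · exact h m (by simp [hm]) x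
  · simp
  · exact h m (by simp [hm]) x

/-- The main inequality. -/
theorem abs_val_le {r : ℕ} (ms : List (X → ℝ)) (hl : ms.length = 2 * (r + 1)) (hb : Bdd ms) :
    |val T ms| ≤ val T (List.replicate (2 * (r + 1)) 1) := by
  classical
  let L := 2 * (r + 1)
  let box : Set (Fin L → X → ℝ) := Set.univ.pi fun _ => Set.univ.pi fun _ => Set.Icc (-1) 1
  have hbox : IsCompact box := isCompact_univ_pi fun _ => isCompact_univ_pi fun _ => isCompact_Icc
  have hne : box.Nonempty := ⟨1, fun i _ x _ => by norm_num⟩
  have hcont : Continuous fun M : Fin L → X → ℝ => |val T (List.ofFn M)| := by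
    simp only [val, word, List.ofFn_eq_map, List.map_map]
    refine (Continuous.matrix_trace ?_).abs
    refine continuous_list_prod _ fun i _ => ?_
    exact (continuous_apply (A := fun _ : Fin L => X → ℝ) i).matrix_diagonal.mul continuous_const
  obtain ⟨M, hMbox, hM⟩ := hbox.exists_isMaxOn hne hcont.continuousOn
  set Φ := |val T (List.ofFn M)|
  have hΦ : ∀ l : List (X → ℝ), l.length = L → Bdd l → |val T l| ≤ Φ := by
    intro l hlen hbd
    have e : List.ofFn (fun i : Fin L => l[(i : ℕ)]'(by omega)) = l :=
      List.ext_getElem (by rw [List.length_ofFn]; exact hlen.symm)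
        (fun i _ _ => by rw [List.getElem_ofFn])
    have hin : (fun i : Fin L => l[(i : ℕ)]'(by omega)) ∈ box := fun i _ x _ =>
      abs_le.1 (hbd _ (List.getElem_mem _) x)
    have := hM hin
    simp only [Set.mem_ofPred_eq] at this
    rwa [e] at this
  have main : ∀ k (l : List (X → ℝ)), L - ones l = k → l.length = L → Bdd l → |val T l| = Φ →
      Φ ≤ val T (List.replicate L 1) := by
    intro k
    induction k using Nat.strong_induction_on with
    | _ k ih =>
      intro l hk hlen hbd hval
      have hB0 := val_replicate_nonneg hT r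
      by_cases hall : ∀ m ∈ l, m = 1
      · rw [← hval, List.eq_replicate_of_mem hall, hlen]
        exact le_of_eq (abs_of_nonneg hB0)
      push Not at hall
      obtain ⟨a, hal, ha⟩ := hall
      obtain ⟨l1, l2, rfl⟩ := List.append_of_mem hal
      have hrot : val T (l1 ++ a :: l2) = val T (a :: (l2 ++ l1)) := by
        rw [val_append_comm, List.cons_append]
      have hcount : ones (l1 ++ a :: l2) = ones (a :: (l2 ++ l1)) := by
        unfold ones
        exact ((List.perm_middle).trans (List.Perm.cons a List.perm_append_comm)).countP_eq _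
      set tl := l2 ++ l1 with htl
      have htlen : tl.length = 2 * r + 1 := by
        simp [L] at hlen; simp [htl]; omega
      have hbd' : Bdd (a :: tl) := fun m hm => hbd m (by simp [htl] at hm ⊢; tauto)
      obtain ⟨b, t, hbt⟩ : ∃ b t, tl.drop r = b :: t :=
        List.exists_cons_of_length_pos (by simp; omega)
      have hsplit : tl = tl.take r ++ b :: t := by rw [← hbt, List.take_append_drop]
      have h1 : Bdd (a :: tl.take r) := fun m hm => hbd' m (by
        rcases List.mem_cons.1 hm with h | h
        · simp [h]
        · exact List.mem_cons_of_mem _ (List.mem_of_mem_take h))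
      have h2 : Bdd (b :: t) := fun m hm =>
        hbd' m (List.mem_cons_of_mem _ (List.mem_of_mem_drop (hbt ▸ hm)))
      have htt : t.length = r := by
        have := congrArg List.length hbt
        simp at this; omega
      have hl1 : (sym (a :: tl.take r)).length = L := by
        rw [length_sym]; simp [L, htlen]; omega
      have hl2 : (sym (b :: t)).length = L := by rw [length_sym]; simp [L, htt]
      have hcs : Φ ^ 2 ≤ val T (sym (a :: tl.take r)) * val T (sym (b :: t)) := by
        have e : val T (a :: tl) = trace (word T (a :: tl.take r) * word T (b :: t)) := by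
          rw [← word_append, List.cons_append, ← hsplit]
          rfl
        rw [← hval, sq_abs, hrot, e,
          ← trace_mul_transpose_word hT a (tl.take r), ← trace_mul_transpose_word hT b t]
        exact sq_trace_mul_le _ _
      have u1 := le_trans (le_abs_self _) (hΦ _ hl1 h1.sym)
      have u2 := le_trans (le_abs_self _) (hΦ _ hl2 h2.sym)
      rcases eq_or_lt_of_le (show (0 : ℝ) ≤ Φ from abs_nonneg _) with h0 | h0
      · exact h0 ▸ hB0
      have n1 : 0 ≤ val T (sym (a :: tl.take r)) := by
        rw [← trace_mul_transpose_word hT]; exact trace_mul_transpose_nonneg _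
      have n2 : 0 ≤ val T (sym (b :: t)) := by
        rw [← trace_mul_transpose_word hT]; exact trace_mul_transpose_nonneg _
      have v1 : val T (sym (a :: tl.take r)) = Φ := by
        refine le_antisymm u1 ?_
        nlinarith [mul_le_mul_of_nonneg_left u2 n1]
      have v2 : val T (sym (b :: t)) = Φ := by
        refine le_antisymm u2 ?_
        nlinarith [mul_le_mul_of_nonneg_left u1 n2]
      have hgt := two_mul_ones_lt (tl.take r) t (b := b) ha
      rw [← hsplit, ← hcount] at hgt
      have c1 := ones_le (sym (a :: tl.take r))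
      have c2 := ones_le (sym (b :: t))
      rcases Nat.lt_or_ge (ones (l1 ++ a :: l2)) (ones (sym (a :: tl.take r))) with hc | hc
      · exact ih _ (by omega) _ rfl hl1 h1.sym (by rw [v1, abs_of_pos h0])
      · exact ih _ (by omega) _ rfl hl2 h2.sym (by rw [v2, abs_of_pos h0])
  refine le_trans (hΦ ms hl hb) (main _ (List.ofFn M) rfl List.length_ofFn ?_ rfl)
  intro m hm x
  obtain ⟨i, rfl⟩ := List.mem_ofFn.1 hm
  exact abs_le.2 (hMbox i trivial x trivial)

omit hT in
/-- Row energy: multiplying a row by a word. -/
lemma sum_sq_vecMul_word {δ : ℝ} (hδ : ∀ a b, |T a b| ≤ δ / Fintype.card X) :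
    ∀ (ms : List (X → ℝ)) (_ : Bdd ms) (x : X → ℝ),
      ∑ b, (x ᵥ* word T ms) b ^ 2 ≤ (δ ^ 2) ^ ms.length * ∑ c, x c ^ 2
  | [], _, x => by simp
  | m :: ms, hb, x => by
    rw [word_cons, ← vecMul_vecMul, ← vecMul_vecMul]
    refine le_trans (sum_sq_vecMul_word hδ ms (fun k hk => hb k (by simp [hk])) _) ?_
    rw [List.length_cons, pow_succ (δ ^ 2), mul_assoc]
    refine mul_le_mul_of_nonneg_left ?_ (by positivity)
    rcases isEmpty_or_nonempty X with hX | hX
    · simp
    have hn : (0 : ℝ) < Fintype.card X := by exact_mod_cast Fintype.card_pos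
    have key : ∀ b, ((x ᵥ* diagonal m) ᵥ* T) b ^ 2 ≤
        (∑ c, x c ^ 2) * (δ ^ 2 / Fintype.card X) := by
      intro b
      simp only [vecMul, dotProduct]
      simp only [diagonal_apply, mul_ite, mul_zero, Finset.sum_ite_eq', Finset.mem_univ, if_true]
      refine le_trans (Finset.sum_mul_sq_le_sq_mul_sq _ _ _) ?_
      refine mul_le_mul ?_ ?_ (Finset.sum_nonneg fun c _ => sq_nonneg _)
        (Finset.sum_nonneg fun c _ => sq_nonneg _)
      · refine Finset.sum_le_sum fun c _ => ?_
        rw [mul_pow]
        exact mul_le_of_le_one_right (sq_nonneg _) ((sq_le_one_iff_abs_le_one _).2 (hb m (by simp) c))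
      · calc ∑ c, T c b ^ 2 ≤ ∑ _c : X, (δ / Fintype.card X) ^ 2 :=
              Finset.sum_le_sum fun c _ => by
                rw [← sq_abs]; exact pow_le_pow_left₀ (abs_nonneg _) (hδ c b) 2
          _ = δ ^ 2 / Fintype.card X := by
              simp only [Finset.sum_const, Finset.card_univ, nsmul_eq_mul]
              field_simp
    refine le_trans (Finset.sum_le_sum fun b _ => key b) (le_of_eq ?_)
    simp only [Finset.sum_const, Finset.card_univ, nsmul_eq_mul]
    field_simp

/-- The diagonal of a word, weighted. -/
theorem sq_sum_diag_le {δ : ℝ} (hδ : ∀ a b, |T a b| ≤ δ / Fintype.card X) {r : ℕ}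
    (ms : List (X → ℝ)) (hl : ms.length = 2 * (r + 1)) (hb : Bdd ms) (d : X → ℝ) :
    (∑ a, d a * word T ms a a) ^ 2 ≤
      (∑ a, d a ^ 2) * ((δ ^ 2) ^ (r + 1) / Fintype.card X)
        * val T (List.replicate (2 * (r + 1)) 1) := by
  rw [mul_assoc]
  refine le_trans (Finset.sum_mul_sq_le_sq_mul_sq _ _ _)
    (mul_le_mul_of_nonneg_left ?_ (Finset.sum_nonneg fun _ _ => sq_nonneg _))
  obtain ⟨a, s, hs⟩ : ∃ a s, ms.take (r + 1) = a :: s :=
    List.exists_cons_of_length_pos (by simp; omega)
  obtain ⟨b, t, ht⟩ : ∃ b t, ms.drop (r + 1) = b :: t :=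
    List.exists_cons_of_length_pos (by simp; omega)
  have hms : ms = (a :: s) ++ (b :: t) := by rw [← hs, ← ht, List.take_append_drop]
  have ha : Bdd (a :: s) := fun m hm => hb m (List.mem_of_mem_take (hs ▸ hm))
  have hb' : Bdd (b :: t) := fun m hm => hb m (List.mem_of_mem_drop (ht ▸ hm))
  have hslen : s.length = r := by
    have := congrArg List.length hs; simp at this; omega
  have htlen : t.length = r := by
    have := congrArg List.length ht; simp at this; omega
  have hrow : ∀ i, ∑ j, word T (a :: s) i j ^ 2 ≤ (δ ^ 2) ^ (r + 1) / Fintype.card X := by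
    intro i
    have hn : (0 : ℝ) < Fintype.card X := by
      exact_mod_cast Fintype.card_pos_iff.2 ⟨i⟩
    have hrowi : ∀ j, word T (a :: s) i j
        = ((fun c => a i * T i c) ᵥ* word T s) j := by
      intro j
      simp [word_cons, Matrix.mul_apply, vecMul, dotProduct, diagonal_apply]
    simp only [hrowi]
    refine le_trans (sum_sq_vecMul_word hδ s (fun k hk => ha k (by simp [hk])) _) ?_
    rw [hslen, pow_succ (δ ^ 2), mul_div_assoc]
    refine mul_le_mul_of_nonneg_left ?_ (by positivity)
    calc ∑ c, (a i * T i c) ^ 2 ≤ ∑ _c : X, (δ / Fintype.card X) ^ 2 :=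
          Finset.sum_le_sum fun c _ => by
            rw [mul_pow, ← sq_abs (T i c)]
            exact le_trans (mul_le_of_le_one_left (sq_nonneg _)
              ((sq_le_one_iff_abs_le_one _).2 (ha a (by simp) i)))
              (pow_le_pow_left₀ (abs_nonneg _) (hδ i c) 2)
      _ = δ ^ 2 / Fintype.card X := by
          simp only [Finset.sum_const, Finset.card_univ, nsmul_eq_mul]
          field_simp
  have hB : ∑ i, ∑ j, word T (b :: t) j i ^ 2 ≤ val T (List.replicate (2 * (r + 1)) 1) := by
    refine le_trans (le_of_eq ?_) (le_trans (le_abs_self (val T (sym (b :: t))))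
      (abs_val_le hT _ (by rw [length_sym]; simp [htlen]) hb'.sym))
    rw [← trace_mul_transpose_word hT]
    simp only [trace, diag_apply, Matrix.mul_apply, transpose_apply, sq]
    exact Finset.sum_comm
  calc ∑ i, word T ms i i ^ 2
      ≤ ∑ i, (δ ^ 2) ^ (r + 1) / Fintype.card X * ∑ j, word T (b :: t) j i ^ 2 := by
        refine Finset.sum_le_sum fun i _ => ?_
        rw [hms, word_append, Matrix.mul_apply]
        exact le_trans (Finset.sum_mul_sq_le_sq_mul_sq _ _ _)
          (mul_le_mul_of_nonneg_right (hrow i) (Finset.sum_nonneg fun _ _ => sq_nonneg _))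
    _ ≤ _ := by
        rw [← Finset.mul_sum]
        exact mul_le_mul_of_nonneg_left hB (by positivity)

end

end Vale.Agent.P050.Local
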